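import Vale.Agent.P224.S13.Z13.Fr

/-!
The contact identity of base function 2.
-/

namespace Vale.Agent.P224.S13.Z13

open Vale.Agent.P224.POS Vale.Agent.P224.S13
open Vale.Agent.P224.SP (ev Q4)

noncomputable section

/-- the integers replacing the variables -/
def MsC2 : List Nat := [
  Nat.add (Nat.pow 2 166) 170800340381741427,
  Nat.add (Nat.pow 2 2138) 460183081081439995,
  Nat.add (Nat.pow 2 13149) 430842249890626723,
  Nat.add (Nat.pow 2 13149) 578127933201632731,
  Nat.add (Nat.pow 2 24160) 203069658382583323]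

set_option maxRecDepth 100000 in
lemma ct2 : Vale.Agent.P224.POS.chk MsC2 (Ctz 2 cl) = true := by decide +kernel

/-- the contact identity -/
theorem ct2_eq {R' : Type*} [CommRing R'] (f : ℕ → R') (hf : ∀ i, 5 ≤ i → f i = 0) :
    PE.ev f (Ctz 2 cl) = 0 :=
  Vale.Agent.P224.POS.ev_eq_zero_of_chk ct2 f fun i hi => hf i (by
    have : MsC2.length = 5 := rfl
    omega)

end

end Vale.Agent.P224.S13.Z13
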