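import Vale.Agent.P224.S13.Z13.Tr
import Vale.Agent.P224.S13.Z13.Ct0
import Vale.Agent.P224.S13.Z13.Ct1
import Vale.Agent.P224.S13.Z13.Ct2
import Vale.Agent.P224.S13.Z13.Ct3
import Vale.Agent.P224.S13.Z13.Bd
import Vale.Agent.P224.S13.Z13.Qi

/-!
The pointwise inequality of the certificate with a parameter in dimension thirteen.
-/

namespace Vale.Agent.P224.S13.Z13

open Vale.Agent.P224.UE Vale.Agent.P224.POS Vale.Agent.P224.PO Vale.Agent.P224.SO Vale.Agent.P224.S13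
open scoped RealInnerProductSpace
open Vale.Agent.P224.SP (ev Q4)

noncomputable section

open Set in
/-- **The pointwise inequality** on `(0, 1)` of the certificate with a parameter. -/
theorem hpos (κ : VBz → ℕ × ℝ) (κ' : VFz → ℕ × ℝ) {E : Type*} [NormedAddCommGroup E]
    [InnerProductSpace ℝ E] :
    ∀ T ∈ Ioo (0 : ℝ) 1, ∀ x N y w : E, ‖x‖ = 1 → ‖N‖ = 1 → ‖y‖ = 1 → ‖w‖ = 1 →
      ⟪x, N⟫ = 0 → ⟪y, w⟫ = 0 →
      gS' ((lGZ (lVD dl c0 kB kF lb lf κ κ')).map GT.v) T (dv x N y w 0)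
        ≤ (OT.Rs 13 (lRZ (lRD dl c0 kB kF rb rf)) T (dv x N y w 0)
          + OT.Rs 13 (lRZ (lRD dl c0 kB kF rb rf)) T (sw9 (dv x N y w 0))) / 2 := by
  refine hpos_D (DD := DD) (fun T hT => ?_) (by decide) (by decide) (by decide) (by decide) κ κ'
    ok_all hb0 hb1 hbr (fun f hf p hp => ?_) (fun f hf => tr_eq f hf) err_ok
    (fun T hT x N y w hx hN hy hw hxN hyw => ?_)
  · have e : dl = DnL := rfl
    rw [e]
    exact DnL_pos hT.1 hT.2
  · interval_cases p
    · exact ct0_eq f hf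
    · exact ct1_eq f hf
    · exact ct2_eq f hf
    · exact ct3_eq f hf
  · have h1 := Vale.Agent.P224.S13.K.TS.posT hx hN hy hw hxN hyw (T := T)
      (by push_cast; linarith [hT.1]) (by push_cast; linarith [hT.2])
    rw [← Qf_eq _ (fun i hi => vT_ge _ _ _ _ _ hi)] at h1
    exact h1

end

end Vale.Agent.P224.S13.Z13
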