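import Vale.Agent.P224.S13.Z13.Dat

/-!
Certificate data in dimension thirteen: the free columns.
-/

namespace Vale.Agent.P224.S13.Z13

open Vale.Agent.P224.POS Vale.Agent.P224.S13
open Vale.Agent.P224.SP (ev Q4)

noncomputable section

/-- the common denominator of the polynomial columns -/
def c0 : ℕ := 3937288128577929216

/-- factor of the approximations -/
def kB : ℕ := 24893568

/-- factor of the polynomial columns -/
def kF : ℕ := 1

/-- free value column 0 -/
def vf0 : VFz := ⟨⟨7, 0, 0, 0, 0⟩, [928173261068430039936, -4543291899367384520448, 9015614204248451479680, -9260568245115217255680, 5148818288390029518720, -1445317216218244526976, 155302852253776137090],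
    .c 0,
    .c 0,
    .c 0,
    .c 0⟩

/-- free value column 1 -/
def vf1 : VFz := ⟨⟨7, 0, 0, 0, 1⟩, [-1856346522136860079872, 9086583798734769040896, -18031228408496902959360, 18521136490230434511360, -10297636576780059037440, 2890634432436489053952, -310605704507552274180],
    .c 0,
    .c 0,
    .c 0,
    .c 0⟩

/-- free value column 2 -/
def vf2 : VFz := ⟨⟨7, 0, 0, 0, 2⟩, [928173261068430039936, -4543291899367384520448, 9015614204248451479680, -9260568245115217255680, 5148818288390029518720, -1445317216218244526976, 155302852253776137090],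
    .c 0,
    .mul (.c (-1)) (.mul (.mul (.add (.mul (.sub (.c (-12)) (.mul (.c 2) (.T))) (.P)) (.mul (.mul (.mul (.c 14) (.a)) (.add (.c 13) (.T))) (.s))) (.pow (.P) 3)) (.c 2)),
    .c 0,
    .mul (.c (-1)) (.mul (.mul (.mul (.mul (.c 2) (.a)) (.add (.c 13) (.T))) (.pow (.P) 4)) (.c 2))⟩

/-- free value column 3 -/
def vf3 : VFz := ⟨⟨7, 0, 1, 0, 0⟩, [983988448670453885568, -3930071475248264691072, 5637934403661541101120, -3074628776275661230080, -170369132571710916480, 730660664388385471104, -180051161479069617468],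
    .c 0,
    .c 0,
    .c 0,
    .c 0⟩

/-- free value column 4 -/
def vf4 : VFz := ⟨⟨7, 0, 1, 0, 1⟩, [-111630375204047691264, -1226440848238239658752, 6755359601173820757120, -12371878937679112051200, 10638374841923480870400, -4351955761213259996160, 670708027465691509116],
    .c 0,
    .c 0,
    .c 0,
    .c 0⟩

/-- free value column 5 -/
def vf5 : VFz := ⟨⟨7, 0, 1, 0, 2⟩, [-872358073466406194304, 5156512323486504349824, -12393294004835361858240, 15446507713954773281280, -10468005709351769953920, 3621295096824874525056, -490656865986621891648],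
    .c 0,
    .mul (.c (-1)) (.mul (.mul (.add (.mul (.sub (.c (-12)) (.mul (.c 2) (.T))) (.P)) (.mul (.mul (.mul (.c 14) (.a)) (.add (.c 13) (.T))) (.s))) (.pow (.P) 3)) (.mul (.c 2) (.t))),
    .c 0,
    .mul (.c (-1)) (.mul (.mul (.mul (.mul (.c 2) (.a)) (.add (.c 13) (.T))) (.pow (.P) 4)) (.mul (.c 2) (.t)))⟩

/-- free value column 6 -/
def vf6 : VFz := ⟨⟨7, 0, 1, 1, 0⟩, [-408271442932191174336, 2884866373802812089600, -7885486902711136118400, 10816223591397164653440, -7893596565156755194560, 2898636488715752261568, -413005439859733823103],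
    .mul (.c (-1)) (.mul (.mul (.add (.mul (.sub (.c (-12)) (.mul (.c 2) (.T))) (.P)) (.mul (.mul (.mul (.c 14) (.a)) (.add (.c 13) (.T))) (.s))) (.pow (.P) 3)) (.c (-2))),
    .c 0,
    .mul (.c (-1)) (.mul (.mul (.mul (.mul (.c 2) (.a)) (.add (.c 13) (.T))) (.pow (.P) 4)) (.c (-2))),
    .c 0⟩

/-- free value column 7 -/
def vf7 : VFz := ⟨⟨7, 0, 1, 1, 1⟩, [872358073466406194304, -5156512323486504349824, 12393294004835361858240, -15446507713954773281280, 10468005709351769953920, -3621295096824874525056, 490656865986621891648],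
    .mul (.c (-1)) (.mul (.mul (.add (.mul (.sub (.c (-12)) (.mul (.c 2) (.T))) (.P)) (.mul (.mul (.mul (.c 14) (.a)) (.add (.c 13) (.T))) (.s))) (.pow (.P) 3)) (.mul (.c (-2)) (.d))),
    .c 0,
    .mul (.c (-1)) (.mul (.mul (.mul (.mul (.c 2) (.a)) (.add (.c 13) (.T))) (.pow (.P) 4)) (.mul (.c (-2)) (.d))),
    .c 0⟩

/-- free value column 8 -/
def vf8 : VFz := ⟨⟨7, 0, 2, 0, 0⟩, [-408271442932191174336, 2884866373802812089600, -7885486902711136118400, 10816223591397164653440, -7893596565156755194560, 2898636488715752261568, -413005439859733823103],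
    .mul (.c (-1)) (.mul (.mul (.add (.mul (.sub (.c (-12)) (.mul (.c 2) (.T))) (.P)) (.mul (.mul (.mul (.c 14) (.a)) (.add (.c 13) (.T))) (.s))) (.pow (.P) 3)) (.c 2)),
    .c 0,
    .mul (.c (-1)) (.mul (.mul (.mul (.mul (.c 2) (.a)) (.add (.c 13) (.T))) (.pow (.P) 4)) (.c 2)),
    .c 0⟩

/-- free value column 9 -/
def vf9 : VFz := ⟨⟨7, 0, 2, 0, 1⟩, [872358073466406194304, -5156512323486504349824, 12393294004835361858240, -15446507713954773281280, 10468005709351769953920, -3621295096824874525056, 490656865986621891648],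
    .mul (.c (-1)) (.mul (.mul (.add (.mul (.sub (.c (-12)) (.mul (.c 2) (.T))) (.P)) (.mul (.mul (.mul (.c 14) (.a)) (.add (.c 13) (.T))) (.s))) (.pow (.P) 3)) (.mul (.c 2) (.d))),
    .c 0,
    .mul (.c (-1)) (.mul (.mul (.mul (.mul (.c 2) (.a)) (.add (.c 13) (.T))) (.pow (.P) 4)) (.mul (.c 2) (.d))),
    .c 0⟩

/-- free value column 10 -/
def vf10 : VFz := ⟨⟨7, 0, 2, 1, 0⟩, [-654268555099804645728, 3867384242614878262368, -9294970503626521393680, 11584880785466079960960, -7851004282013827465440, 2715971322618655893792, -367992649489966418736],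
    .mul (.c (-1)) (.mul (.mul (.add (.mul (.sub (.c (-12)) (.mul (.c 2) (.T))) (.P)) (.mul (.mul (.mul (.c 14) (.a)) (.add (.c 13) (.T))) (.s))) (.pow (.P) 3)) (.mul (.c (-2)) (.t))),
    .c 0,
    .mul (.c (-1)) (.mul (.mul (.mul (.mul (.c 2) (.a)) (.add (.c 13) (.T))) (.pow (.P) 4)) (.mul (.c (-2)) (.t))),
    .c 0⟩

/-- free value column 11 -/
def vf11 : VFz := ⟨⟨7, 0, 3, 0, 0⟩, [-218089518366601548576, 1289128080871626087456, -3098323501208840464560, 3861626928488693320320, -2617001427337942488480, 905323774206218631264, -122664216496655472912],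
    .mul (.c (-1)) (.mul (.mul (.add (.mul (.sub (.c (-12)) (.mul (.c 2) (.T))) (.P)) (.mul (.mul (.mul (.c 14) (.a)) (.add (.c 13) (.T))) (.s))) (.pow (.P) 3)) (.mul (.c 6) (.t))),
    .c 0,
    .mul (.c (-1)) (.mul (.mul (.mul (.mul (.c 2) (.a)) (.add (.c 13) (.T))) (.pow (.P) 4)) (.mul (.c 6) (.t))),
    .c 0⟩

/-- free value column 12 -/
def vf12 : VFz := ⟨⟨7, 1, 0, 0, 0⟩, [-1855760831818333981632, 8633137762152642106368, -16162704333407043135360, 15550981055809665822720, -8100073243869133101120, 2180356404527927074176, -245087022087220665348],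
    .c 0,
    .c 0,
    .c 0,
    .c 0⟩

/-- free value column 13 -/
def vf13 : VFz := ⟨⟨7, 1, 0, 0, 1⟩, [1855175141499807883392, -8179691725570515171840, 14294180258317183311360, -12580825621388897134080, 5902509910958207164800, -1470078376619365094400, 179568339666889056516],
    .c 0,
    .c 0,
    .c 0,
    .c 0⟩

/-- free value column 14 -/
def vf14 : VFz := ⟨⟨7, 1, 0, 0, 2⟩, [585690318526098240, -453446036582126934528, 1868524075089859824000, -2970155434420768688640, 2197563332910925936320, -710278027908561979776, 65518682420331608832],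
    .c 0,
    .mul (.c (-1)) (.mul (.mul (.mul (.add (.mul (.sub (.c (-12)) (.mul (.c 2) (.T))) (.P)) (.mul (.mul (.mul (.c 14) (.a)) (.add (.c 13) (.T))) (.s))) (.w)) (.pow (.P) 3)) (.c 2)),
    .c 0,
    .mul (.c (-1)) (.mul (.mul (.mul (.mul (.mul (.c 2) (.a)) (.add (.c 13) (.T))) (.w)) (.pow (.P) 4)) (.c 2))⟩

/-- free value column 15 -/
def vf15 : VFz := ⟨⟨7, 1, 1, 0, 0⟩, [-110458994566995494784, -1761160785079964381568, 8539886886757362339840, -14294957955085458443520, 10996534251894290823360, -3801354319114905885696, 430660792447807478652],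
    .c 0,
    .c 0,
    .c 0,
    .c 0⟩

/-- free value column 16 -/
def vf16 : VFz := ⟨⟨7, 1, 1, 0, 1⟩, [-1745887527569864585088, 10475572447492204276224, -24618594430658087233920, 28798862593880701969920, -17257203572823307941120, 4720831253635916869632, -370181897096812504704],
    .c 0,
    .c 0,
    .c 0,
    .c 0⟩

/-- free value column 17 -/
def vf17 : VFz := ⟨⟨7, 1, 1, 0, 2⟩, [0, 372172136322529146240, -1952520864596178065280, 4017231851435190984960, -4036967255851041919680, 1971157497915478070016, -371084599858547248128],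
    .c 0,
    .mul (.c (-1)) (.mul (.mul (.mul (.add (.mul (.sub (.c (-12)) (.mul (.c 2) (.T))) (.P)) (.mul (.mul (.mul (.c 14) (.a)) (.add (.c 13) (.T))) (.s))) (.w)) (.pow (.P) 3)) (.mul (.c 2) (.t))),
    .c 0,
    .mul (.c (-1)) (.mul (.mul (.mul (.mul (.mul (.c 2) (.a)) (.add (.c 13) (.T))) (.w)) (.pow (.P) 4)) (.mul (.c 2) (.t)))⟩

/-- free value column 18 -/
def vf18 : VFz := ⟨⟨7, 1, 1, 1, 0⟩, [872650918625669243424, -5011063205455038670848, 11375035177784113704960, -12914353579729966640640, 7529820119956191002400, -2005276612863677444928, 152331607338240447936],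
    .mul (.c (-1)) (.mul (.mul (.mul (.add (.mul (.sub (.c (-12)) (.mul (.c 2) (.T))) (.P)) (.mul (.mul (.mul (.c 14) (.a)) (.add (.c 13) (.T))) (.s))) (.w)) (.pow (.P) 3)) (.c (-2))),
    .c 0,
    .mul (.c (-1)) (.mul (.mul (.mul (.mul (.mul (.c 2) (.a)) (.add (.c 13) (.T))) (.w)) (.pow (.P) 4)) (.c (-2))),
    .c 0⟩

/-- free value column 19 -/
def vf19 : VFz := ⟨⟨7, 1, 1, 1, 1⟩, [0, -372172136322529146240, 1952520864596178065280, -4017231851435190984960, 4036967255851041919680, -1971157497915478070016, 371084599858547248128],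
    .mul (.c (-1)) (.mul (.mul (.mul (.add (.mul (.sub (.c (-12)) (.mul (.c 2) (.T))) (.P)) (.mul (.mul (.mul (.c 14) (.a)) (.add (.c 13) (.T))) (.s))) (.w)) (.pow (.P) 3)) (.mul (.c (-2)) (.d))),
    .c 0,
    .mul (.c (-1)) (.mul (.mul (.mul (.mul (.mul (.c 2) (.a)) (.add (.c 13) (.T))) (.w)) (.pow (.P) 4)) (.mul (.c (-2)) (.d))),
    .c 0⟩

/-- free value column 20 -/
def vf20 : VFz := ⟨⟨7, 1, 2, 0, 0⟩, [872650918625669243424, -5011063205455038670848, 11375035177784113704960, -12914353579729966640640, 7529820119956191002400, -2005276612863677444928, 152331607338240447936],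
    .mul (.c (-1)) (.mul (.mul (.mul (.add (.mul (.sub (.c (-12)) (.mul (.c 2) (.T))) (.P)) (.mul (.mul (.mul (.c 14) (.a)) (.add (.c 13) (.T))) (.s))) (.w)) (.pow (.P) 3)) (.c 2)),
    .c 0,
    .mul (.c (-1)) (.mul (.mul (.mul (.mul (.mul (.c 2) (.a)) (.add (.c 13) (.T))) (.w)) (.pow (.P) 4)) (.c 2)),
    .c 0⟩

/-- free value column 21 -/
def vf21 : VFz := ⟨⟨7, 1, 2, 0, 1⟩, [0, -372172136322529146240, 1952520864596178065280, -4017231851435190984960, 4036967255851041919680, -1971157497915478070016, 371084599858547248128],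
    .mul (.c (-1)) (.mul (.mul (.mul (.add (.mul (.sub (.c (-12)) (.mul (.c 2) (.T))) (.P)) (.mul (.mul (.mul (.c 14) (.a)) (.add (.c 13) (.T))) (.s))) (.w)) (.pow (.P) 3)) (.mul (.c 2) (.d))),
    .c 0,
    .mul (.c (-1)) (.mul (.mul (.mul (.mul (.mul (.c 2) (.a)) (.add (.c 13) (.T))) (.w)) (.pow (.P) 4)) (.mul (.c 2) (.d))),
    .c 0⟩

/-- free value column 22 -/
def vf22 : VFz := ⟨⟨7, 1, 2, 1, 0⟩, [0, 279129102241896859680, -1464390648447133548960, 3012923888576393238720, -3027725441888281439760, 1478368123436608552512, -278313449893910436096],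
    .mul (.c (-1)) (.mul (.mul (.mul (.add (.mul (.sub (.c (-12)) (.mul (.c 2) (.T))) (.P)) (.mul (.mul (.mul (.c 14) (.a)) (.add (.c 13) (.T))) (.s))) (.w)) (.pow (.P) 3)) (.mul (.c (-2)) (.t))),
    .c 0,
    .mul (.c (-1)) (.mul (.mul (.mul (.mul (.mul (.c 2) (.a)) (.add (.c 13) (.T))) (.w)) (.pow (.P) 4)) (.mul (.c (-2)) (.t))),
    .c 0⟩

/-- free value column 23 -/
def vf23 : VFz := ⟨⟨7, 1, 3, 0, 0⟩, [0, 93043034080632286560, -488130216149044516320, 1004307962858797746240, -1009241813962760479920, 492789374478869517504, -92771149964636812032],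
    .mul (.c (-1)) (.mul (.mul (.mul (.add (.mul (.sub (.c (-12)) (.mul (.c 2) (.T))) (.P)) (.mul (.mul (.mul (.c 14) (.a)) (.add (.c 13) (.T))) (.s))) (.w)) (.pow (.P) 3)) (.mul (.c 6) (.t))),
    .c 0,
    .mul (.c (-1)) (.mul (.mul (.mul (.mul (.mul (.c 2) (.a)) (.add (.c 13) (.T))) (.w)) (.pow (.P) 4)) (.mul (.c 6) (.t))),
    .c 0⟩

/-- free value column 24 -/
def vf24 : VFz := ⟨⟨7, 2, 0, 0, 0⟩, [927001880431377843456, -3632819282717306258304, 5437105944657461867520, -3991824059606043897600, 1776339972900297342720, -707577616021272587136, 193871130612845155650],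
    .c 0,
    .c 0,
    .c 0,
    .c 0⟩

/-- free value column 25 -/
def vf25 : VFz := ⟨⟨7, 2, 0, 0, 1⟩, [1171380637052196480, -914053160135902655232, 3419968369002259576320, -4597177502176809338880, 2349829965157612479360, -54923144576819920128, -208173921558801254784],
    .c 0,
    .c 0,
    .c 0,
    .c 0⟩

/-- free value column 26 -/
def vf26 : VFz := ⟨⟨7, 2, 0, 0, 2⟩, [0, 3580543485824393088, 158539890588730035840, -671566683332364019200, 1022648350332119696640, -682816455620152019712, 169605643199732236224],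
    .c 0,
    .mul (.c (-1)) (.mul (.mul (.mul (.add (.mul (.sub (.c (-12)) (.mul (.c 2) (.T))) (.P)) (.mul (.mul (.mul (.c 14) (.a)) (.add (.c 13) (.T))) (.s))) (.pow (.w) 2)) (.pow (.P) 3)) (.c 2)),
    .c 0,
    .mul (.c (-1)) (.mul (.mul (.mul (.mul (.mul (.c 2) (.a)) (.add (.c 13) (.T))) (.pow (.w) 2)) (.pow (.P) 4)) (.c 2))⟩

/-- free value column 27 -/
def vf27 : VFz := ⟨⟨7, 2, 1, 0, 0⟩, [-873529454103458390784, 5325626436311929378176, -11995527257312675207040, 12429826931606063616000, -5490412758286195521600, 317454332818862768256, 289945015481475821376],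
    .c 0,
    .c 0,
    .c 0,
    .c 0⟩

/-- free value column 28 -/
def vf28 : VFz := ⟨⟨7, 2, 1, 0, 1⟩, [0, 738372735004248175104, -4047508285034996396160, 8536386232845384076800, -8626208021408529377280, 4140845732575011253248, -741898006500962892672],
    .c 0,
    .c 0,
    .c 0,
    .c 0⟩

/-- free value column 29 -/
def vf29 : VFz := ⟨⟨7, 2, 1, 0, 2⟩, [0, -594774665419334400, -87306612667409903040, 420605418344862965760, -746511595478896927680, 583551087248124463104, -169741239807798038016],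
    .c 0,
    .mul (.c (-1)) (.mul (.mul (.mul (.add (.mul (.sub (.c (-12)) (.mul (.c 2) (.T))) (.P)) (.mul (.mul (.mul (.c 14) (.a)) (.add (.c 13) (.T))) (.s))) (.pow (.w) 2)) (.pow (.P) 3)) (.mul (.c 2) (.t))),
    .c 0,
    .mul (.c (-1)) (.mul (.mul (.mul (.mul (.mul (.c 2) (.a)) (.add (.c 13) (.T))) (.pow (.w) 2)) (.pow (.P) 4)) (.mul (.c 2) (.t)))⟩

/-- free value column 30 -/
def vf30 : VFz := ⟨⟨7, 2, 1, 1, 0⟩, [0, -370976639245036284096, 1944484197223133180160, -3932409774756510028800, 3801779835538204840320, -1729014638477429616768, 286146181650615328224],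
    .mul (.c (-1)) (.mul (.mul (.mul (.add (.mul (.sub (.c (-12)) (.mul (.c 2) (.T))) (.P)) (.mul (.mul (.mul (.c 14) (.a)) (.add (.c 13) (.T))) (.s))) (.pow (.w) 2)) (.pow (.P) 3)) (.c (-2))),
    .c 0,
    .mul (.c (-1)) (.mul (.mul (.mul (.mul (.mul (.c 2) (.a)) (.add (.c 13) (.T))) (.pow (.w) 2)) (.pow (.P) 4)) (.c (-2))),
    .c 0⟩

/-- free value column 31 -/
def vf31 : VFz := ⟨⟨7, 2, 1, 1, 1⟩, [0, 594774665419334400, 87306612667409903040, -420605418344862965760, 746511595478896927680, -583551087248124463104, 169741239807798038016],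
    .mul (.c (-1)) (.mul (.mul (.mul (.add (.mul (.sub (.c (-12)) (.mul (.c 2) (.T))) (.P)) (.mul (.mul (.mul (.c 14) (.a)) (.add (.c 13) (.T))) (.s))) (.pow (.w) 2)) (.pow (.P) 3)) (.mul (.c (-2)) (.d))),
    .c 0,
    .mul (.c (-1)) (.mul (.mul (.mul (.mul (.mul (.c 2) (.a)) (.add (.c 13) (.T))) (.pow (.w) 2)) (.pow (.P) 4)) (.mul (.c (-2)) (.d))),
    .c 0⟩

/-- free value column 32 -/
def vf32 : VFz := ⟨⟨7, 2, 2, 0, 0⟩, [0, -370976639245036284096, 1944484197223133180160, -3932409774756510028800, 3801779835538204840320, -1729014638477429616768, 286146181650615328224],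
    .mul (.c (-1)) (.mul (.mul (.mul (.add (.mul (.sub (.c (-12)) (.mul (.c 2) (.T))) (.P)) (.mul (.mul (.mul (.c 14) (.a)) (.add (.c 13) (.T))) (.s))) (.pow (.w) 2)) (.pow (.P) 3)) (.c 2)),
    .c 0,
    .mul (.c (-1)) (.mul (.mul (.mul (.mul (.mul (.c 2) (.a)) (.add (.c 13) (.T))) (.pow (.w) 2)) (.pow (.P) 4)) (.c 2)),
    .c 0⟩

/-- free value column 33 -/
def vf33 : VFz := ⟨⟨7, 2, 2, 0, 1⟩, [0, 594774665419334400, 87306612667409903040, -420605418344862965760, 746511595478896927680, -583551087248124463104, 169741239807798038016],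
    .mul (.c (-1)) (.mul (.mul (.mul (.add (.mul (.sub (.c (-12)) (.mul (.c 2) (.T))) (.P)) (.mul (.mul (.mul (.c 14) (.a)) (.add (.c 13) (.T))) (.s))) (.pow (.w) 2)) (.pow (.P) 3)) (.mul (.c 2) (.d))),
    .c 0,
    .mul (.c (-1)) (.mul (.mul (.mul (.mul (.mul (.c 2) (.a)) (.add (.c 13) (.T))) (.pow (.w) 2)) (.pow (.P) 4)) (.mul (.c 2) (.d))),
    .c 0⟩

/-- free value column 34 -/
def vf34 : VFz := ⟨⟨7, 2, 2, 1, 0⟩, [0, -446080999064500800, -65479959500557427280, 315454063758647224320, -559883696609172695760, 437663315436093347328, -127305929855848528512],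
    .mul (.c (-1)) (.mul (.mul (.mul (.add (.mul (.sub (.c (-12)) (.mul (.c 2) (.T))) (.P)) (.mul (.mul (.mul (.c 14) (.a)) (.add (.c 13) (.T))) (.s))) (.pow (.w) 2)) (.pow (.P) 3)) (.mul (.c (-2)) (.t))),
    .c 0,
    .mul (.c (-1)) (.mul (.mul (.mul (.mul (.mul (.c 2) (.a)) (.add (.c 13) (.T))) (.pow (.w) 2)) (.pow (.P) 4)) (.mul (.c (-2)) (.t))),
    .c 0⟩

/-- free value column 35 -/
def vf35 : VFz := ⟨⟨7, 2, 3, 0, 0⟩, [0, -148693666354833600, -21826653166852475760, 105151354586215741440, -186627898869724231920, 145887771812031115776, -42435309951949509504],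
    .mul (.c (-1)) (.mul (.mul (.mul (.add (.mul (.sub (.c (-12)) (.mul (.c 2) (.T))) (.P)) (.mul (.mul (.mul (.c 14) (.a)) (.add (.c 13) (.T))) (.s))) (.pow (.w) 2)) (.pow (.P) 3)) (.mul (.c 6) (.t))),
    .c 0,
    .mul (.c (-1)) (.mul (.mul (.mul (.mul (.mul (.c 2) (.a)) (.add (.c 13) (.T))) (.pow (.w) 2)) (.pow (.P) 4)) (.mul (.c 6) (.t))),
    .c 0⟩

/-- free value column 36 -/
def vf36 : VFz := ⟨⟨7, 3, 0, 0, 0⟩, [585690318526098240, -460607123553775720704, 1551444293912399752320, -1627022067756040650240, 152266632246686543040, 655354883331742059648, -273692603979132863616],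
    .c 0,
    .c 0,
    .c 0,
    .c 0⟩

/-- free value column 37 -/
def vf37 : VFz := ⟨⟨7, 3, 0, 0, 1⟩, [0, 7161086971648786176, 317079781177460071680, -1343133366664728038400, 2045296700664239393280, -1365632911240304039424, 339211286399464472448],
    .c 0,
    .c 0,
    .c 0,
    .c 0⟩

/-- free value column 38 -/
def vf38 : VFz := ⟨⟨7, 3, 1, 0, 0⟩, [0, 366200598681719028864, -2094987420438818330880, 4519154381410193091840, -4589240765557487457600, 2169688234659533183232, -370813406642415644544],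
    .c 0,
    .c 0,
    .c 0,
    .c 0⟩

/-- free value column 39 -/
def vf39 : VFz := ⟨⟨7, 3, 1, 0, 1⟩, [0, -1189549330838668800, -174613225334819806080, 841210836689725931520, -1493023190957793855360, 1167102174496248926208, -339482479615596076032],
    .c 0,
    .c 0,
    .c 0,
    .c 0⟩

/-- free value column 40 -/
def vf40 : VFz := ⟨⟨7, 3, 1, 1, 0⟩, [0, 594774665419334400, 87306612667409903040, -420605418344862965760, 746511595478896927680, -583551087248124463104, 169741239807798038016],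
    .mul (.c (-1)) (.mul (.mul (.mul (.add (.mul (.sub (.c (-12)) (.mul (.c 2) (.T))) (.P)) (.mul (.mul (.mul (.c 14) (.a)) (.add (.c 13) (.T))) (.s))) (.pow (.w) 3)) (.pow (.P) 3)) (.c (-2))),
    .c 0,
    .mul (.c (-1)) (.mul (.mul (.mul (.mul (.mul (.c 2) (.a)) (.add (.c 13) (.T))) (.pow (.w) 3)) (.pow (.P) 4)) (.c (-2))),
    .c 0⟩

/-- free value column 41 -/
def vf41 : VFz := ⟨⟨7, 3, 2, 0, 0⟩, [0, 594774665419334400, 87306612667409903040, -420605418344862965760, 746511595478896927680, -583551087248124463104, 169741239807798038016],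
    .mul (.c (-1)) (.mul (.mul (.mul (.add (.mul (.sub (.c (-12)) (.mul (.c 2) (.T))) (.P)) (.mul (.mul (.mul (.c 14) (.a)) (.add (.c 13) (.T))) (.s))) (.pow (.w) 3)) (.pow (.P) 3)) (.c 2)),
    .c 0,
    .mul (.c (-1)) (.mul (.mul (.mul (.mul (.mul (.c 2) (.a)) (.add (.c 13) (.T))) (.pow (.w) 3)) (.pow (.P) 4)) (.c 2)),
    .c 0⟩

/-- free value column 42 -/
def vf42 : VFz := ⟨⟨7, 4, 0, 0, 0⟩, [0, 3580543485824393088, 158539890588730035840, -671566683332364019200, 1022648350332119696640, -682816455620152019712, 169605643199732236224],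
    .c 0,
    .c 0,
    .c 0,
    .c 0⟩

/-- free value column 43 -/
def vf43 : VFz := ⟨⟨7, 4, 1, 0, 0⟩, [0, -594774665419334400, -87306612667409903040, 420605418344862965760, -746511595478896927680, 583551087248124463104, -169741239807798038016],
    .c 0,
    .c 0,
    .c 0,
    .c 0⟩

/-- free value column 44 -/
def vf44 : VFz := ⟨⟨8, 0, 0, 0, 0⟩, [-1624195576686611283264, 9158333509284770446272, -21650362136256932140608, 27659678301780010799040, -20452422397314916532160, 8636085426253673553984, -1882435569677723607456, 155318442617728764192],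
    .c 0,
    .c 0,
    .c 0,
    .c 0⟩

/-- free value column 45 -/
def vf45 : VFz := ⟨⟨8, 0, 0, 0, 1⟩, [3248391153373222566528, -18316667018569540892544, 43300724272513864281216, -55319356603560021598080, 40904844794629833064320, -17272170852507347107968, 3764871139355447214912, -310636885235457528384],
    .c 0,
    .c 0,
    .c 0,
    .c 0⟩

/-- free value column 46 -/
def vf46 : VFz := ⟨⟨8, 0, 0, 0, 2⟩, [-1624195576686611283264, 9158333509284770446272, -21650362136256932140608, 27659678301780010799040, -20452422397314916532160, 8636085426253673553984, -1882435569677723607456, 155318442617728764192],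
    .c 0,
    .mul (.c (-1)) (.mul (.mul (.add (.mul (.sub (.c (-12)) (.mul (.c 2) (.T))) (.P)) (.mul (.mul (.mul (.c 16) (.a)) (.add (.c 13) (.T))) (.s))) (.pow (.P) 2)) (.c 2)),
    .c 0,
    .mul (.c (-1)) (.mul (.mul (.mul (.mul (.c 2) (.a)) (.add (.c 13) (.T))) (.pow (.P) 3)) (.c 2))⟩

/-- free value column 47 -/
def vf47 : VFz := ⟨⟨8, 0, 1, 0, 0⟩, [-1643420496220435138752, 7564426081456525864128, -13106143982711205107136, 9335766687472666284480, -31256910624011829120, -3813433453815987665664, 2025683840235699606144, -331621765793252014080],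
    .c 0,
    .c 0,
    .c 0,
    .c 0⟩

/-- free value column 48 -/
def vf48 : VFz := ⟨⟨8, 0, 1, 0, 1⟩, [38449839067647710976, 3187814855656489164288, -17088436307091454066944, 36647823228614689029120, -40842330973381809406080, 24899037760139322439296, -7816238819826846427200, 973880416821961556544],
    .c 0,
    .c 0,
    .c 0,
    .c 0⟩

/-- free value column 49 -/
def vf49 : VFz := ⟨⟨8, 0, 1, 0, 2⟩, [1604970657152787427776, -10752240937113015028416, 30194580289802659174080, -45983589916087355313600, 40873587884005821235200, -21085604306323334773632, 5790554979591146821056, -642258651028709542464],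
    .c 0,
    .mul (.c (-1)) (.mul (.mul (.add (.mul (.sub (.c (-12)) (.mul (.c 2) (.T))) (.P)) (.mul (.mul (.mul (.c 16) (.a)) (.add (.c 13) (.T))) (.s))) (.pow (.P) 2)) (.mul (.c 2) (.t))),
    .c 0,
    .mul (.c (-1)) (.mul (.mul (.mul (.mul (.c 2) (.a)) (.add (.c 13) (.T))) (.pow (.P) 3)) (.mul (.c 2) (.t)))⟩

/-- free value column 50 -/
def vf50 : VFz := ⟨⟨8, 0, 1, 1, 0⟩, [6776275843646971657632, -36797908337256234194208, 85279020786422473360896, -111638910766375676567520, 90648533308446172069920, -44557098429477239817120, 10864315975559649932784, -564599429719845160368],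
    .mul (.c (-1)) (.mul (.mul (.add (.mul (.sub (.c (-12)) (.mul (.c 2) (.T))) (.P)) (.mul (.mul (.mul (.c 16) (.a)) (.add (.c 13) (.T))) (.s))) (.pow (.P) 2)) (.c (-2))),
    .c 0,
    .mul (.c (-1)) (.mul (.mul (.mul (.mul (.c 2) (.a)) (.add (.c 13) (.T))) (.pow (.P) 3)) (.c (-2))),
    .c 0⟩

/-- free value column 51 -/
def vf51 : VFz := ⟨⟨8, 0, 1, 1, 1⟩, [-2945009093822341981344, 25117296337462189521024, -86307296621319043189920, 141087222647486860530240, -121948471989470750682240, 54867738859165296215424, -10886850640785687134112, 642258651028709542464],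
    .mul (.c (-1)) (.mul (.mul (.add (.mul (.sub (.c (-12)) (.mul (.c 2) (.T))) (.P)) (.mul (.mul (.mul (.c 16) (.a)) (.add (.c 13) (.T))) (.s))) (.pow (.P) 2)) (.mul (.c (-2)) (.d))),
    .c 0,
    .mul (.c (-1)) (.mul (.mul (.mul (.mul (.c 2) (.a)) (.add (.c 13) (.T))) (.pow (.P) 3)) (.mul (.c (-2)) (.d))),
    .c 0⟩

/-- free value column 52 -/
def vf52 : VFz := ⟨⟨8, 0, 1, 1, 2⟩, [-206391224651812907616, -1681436630408318993664, 8977983892575852772800, -15051682493126605347840, 11232228087309978534240, -3574177955026429435776, 303433097027156669664],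
    .mul (.c (-1)) (.mul (.mul (.add (.mul (.sub (.c (-12)) (.mul (.c 2) (.T))) (.P)) (.mul (.mul (.mul (.c 16) (.a)) (.add (.c 13) (.T))) (.s))) (.pow (.P) 2)) (.mul (.c (-2)) (.pow (.d) 2))),
    .mul (.c (-1)) (.mul (.mul (.add (.mul (.sub (.c (-12)) (.mul (.c 2) (.T))) (.P)) (.mul (.mul (.mul (.c 16) (.a)) (.add (.c 13) (.T))) (.s))) (.pow (.P) 2)) (.mul (.c 2) (.pow (.t) 2))),
    .mul (.c (-1)) (.mul (.mul (.mul (.mul (.c 2) (.a)) (.add (.c 13) (.T))) (.pow (.P) 3)) (.mul (.c (-2)) (.pow (.d) 2))),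
    .mul (.c (-1)) (.mul (.mul (.mul (.mul (.c 2) (.a)) (.add (.c 13) (.T))) (.pow (.P) 3)) (.mul (.c 2) (.pow (.t) 2)))⟩

/-- free value column 53 -/
def vf53 : VFz := ⟨⟨8, 0, 2, 0, 0⟩, [-5603312555331633900576, 21088886711498336596320, -28584254557922381607744, 17228044249727766043680, -6889323763129489063200, 3873619333031384952288, -558775392000766558800, -564599429719845160368],
    .mul (.c (-1)) (.mul (.mul (.add (.mul (.sub (.c (-12)) (.mul (.c 2) (.T))) (.P)) (.mul (.mul (.mul (.c 16) (.a)) (.add (.c 13) (.T))) (.s))) (.pow (.P) 2)) (.c 2)),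
    .c 0,
    .mul (.c (-1)) (.mul (.mul (.mul (.mul (.c 2) (.a)) (.add (.c 13) (.T))) (.pow (.P) 3)) (.c 2)),
    .c 0⟩

/-- free value column 54 -/
def vf54 : VFz := ⟨⟨8, 0, 2, 0, 1⟩, [560632678124018756256, 3112932058397116510464, -9993799528589686249440, 11086687157194271488320, -4727616127780805925120, 1600181573587091074944, -1907991706505233186656, 642258651028709542464],
    .mul (.c (-1)) (.mul (.mul (.add (.mul (.sub (.c (-12)) (.mul (.c 2) (.T))) (.P)) (.mul (.mul (.mul (.c 16) (.a)) (.add (.c 13) (.T))) (.s))) (.pow (.P) 2)) (.mul (.c 2) (.d))),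
    .c 0,
    .mul (.c (-1)) (.mul (.mul (.mul (.mul (.c 2) (.a)) (.add (.c 13) (.T))) (.pow (.P) 3)) (.mul (.c 2) (.d))),
    .c 0⟩

/-- free value column 55 -/
def vf55 : VFz := ⟨⟨8, 0, 2, 0, 2⟩, [-206391224651812907616, -1681436630408318993664, 8977983892575852772800, -15051682493126605347840, 11232228087309978534240, -3574177955026429435776, 303433097027156669664],
    .mul (.c (-1)) (.mul (.mul (.add (.mul (.sub (.c (-12)) (.mul (.c 2) (.T))) (.P)) (.mul (.mul (.mul (.c 16) (.a)) (.add (.c 13) (.T))) (.s))) (.pow (.P) 2)) (.mul (.c 2) (.pow (.d) 2))),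
    .mul (.c (-1)) (.mul (.mul (.add (.mul (.sub (.c (-12)) (.mul (.c 2) (.T))) (.P)) (.mul (.mul (.mul (.c 16) (.a)) (.add (.c 13) (.T))) (.s))) (.pow (.P) 2)) (.mul (.c 2) (.pow (.t) 2))),
    .mul (.c (-1)) (.mul (.mul (.mul (.mul (.c 2) (.a)) (.add (.c 13) (.T))) (.pow (.P) 3)) (.mul (.c 2) (.pow (.d) 2))),
    .mul (.c (-1)) (.mul (.mul (.mul (.mul (.c 2) (.a)) (.add (.c 13) (.T))) (.pow (.P) 3)) (.mul (.c 2) (.pow (.t) 2)))⟩

/-- free value column 56 -/
def vf56 : VFz := ⟨⟨8, 0, 2, 1, 0⟩, [2084155138902272173920, -24604064668800629852112, 85179335621129147558160, -132102910006764386311440, 99612915590421872533440, -33595995531635011500480, 3907806942739718216016, -481693988271532156848],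
    .mul (.c (-1)) (.mul (.mul (.add (.mul (.sub (.c (-12)) (.mul (.c 2) (.T))) (.P)) (.mul (.mul (.mul (.c 16) (.a)) (.add (.c 13) (.T))) (.s))) (.pow (.P) 2)) (.mul (.c (-2)) (.t))),
    .c 0,
    .mul (.c (-1)) (.mul (.mul (.mul (.mul (.c 2) (.a)) (.add (.c 13) (.T))) (.pow (.P) 3)) (.mul (.c (-2)) (.t))),
    .c 0⟩

/-- free value column 57 -/
def vf57 : VFz := ⟨⟨8, 0, 2, 1, 1⟩, [323210796530326312608, 6789447338886554430816, -29158861315611081862080, 40127922791055788794560, -17647165510028098415280, -4349515124430127308384, 3914795192609746763136],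
    .mul (.c (-1)) (.mul (.mul (.add (.mul (.sub (.c (-12)) (.mul (.c 2) (.T))) (.P)) (.mul (.mul (.mul (.c 16) (.a)) (.add (.c 13) (.T))) (.s))) (.pow (.P) 2)) (.mul (.mul (.c (-2)) (.t)) (.d))),
    .c 0,
    .mul (.c (-1)) (.mul (.mul (.mul (.mul (.c 2) (.a)) (.add (.c 13) (.T))) (.pow (.P) 3)) (.mul (.mul (.c (-2)) (.t)) (.d))),
    .c 0⟩

/-- free value column 58 -/
def vf58 : VFz := ⟨⟨8, 0, 2, 2, 0⟩, [-154793418488859680712, -1261077472806239245248, 6733487919431889579600, -11288761869844954010880, 8424171065482483900680, -2680633466269822076832, 227574822770367502248],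
    .mul (.c (-1)) (.mul (.mul (.add (.mul (.sub (.c (-12)) (.mul (.c 2) (.T))) (.P)) (.mul (.mul (.mul (.c 16) (.a)) (.add (.c 13) (.T))) (.s))) (.pow (.P) 2)) (.add (.mul (.c 2) (.pow (.u) 2)) (.mul (.c (-4)) (.pow (.t) 2)))),
    .c 0,
    .mul (.c (-1)) (.mul (.mul (.mul (.mul (.c 2) (.a)) (.add (.c 13) (.T))) (.pow (.P) 3)) (.add (.mul (.c 2) (.pow (.u) 2)) (.mul (.c (-4)) (.pow (.t) 2)))),
    .c 0⟩

/-- free value column 59 -/
def vf59 : VFz := ⟨⟨8, 0, 3, 0, 0⟩, [-1304749380356736376608, 7126077210054338849040, -19072819761023077292880, 25912590118170609606480, -13810415357176137161280, -1786320594794041016256, 3096480424960055283696, -160564662757177385616],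
    .mul (.c (-1)) (.mul (.mul (.add (.mul (.sub (.c (-12)) (.mul (.c 2) (.T))) (.P)) (.mul (.mul (.mul (.c 16) (.a)) (.add (.c 13) (.T))) (.s))) (.pow (.P) 2)) (.mul (.c 6) (.t))),
    .c 0,
    .mul (.c (-1)) (.mul (.mul (.mul (.mul (.c 2) (.a)) (.add (.c 13) (.T))) (.pow (.P) 3)) (.mul (.c 6) (.t))),
    .c 0⟩

/-- free value column 60 -/
def vf60 : VFz := ⟨⟨8, 0, 3, 0, 1⟩, [502354102076925317856, -63700817253278456160, -6753074254692329229120, 20078807181450632596800, -27281746839211815721680, 18646226944535845051488, -5128527580718373441792],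
    .mul (.c (-1)) (.mul (.mul (.add (.mul (.sub (.c (-12)) (.mul (.c 2) (.T))) (.P)) (.mul (.mul (.mul (.c 16) (.a)) (.add (.c 13) (.T))) (.s))) (.pow (.P) 2)) (.mul (.mul (.c 6) (.t)) (.d))),
    .c 0,
    .mul (.c (-1)) (.mul (.mul (.mul (.mul (.c 2) (.a)) (.add (.c 13) (.T))) (.pow (.P) 3)) (.mul (.mul (.c 6) (.t)) (.d))),
    .c 0⟩

/-- free value column 61 -/
def vf61 : VFz := ⟨⟨8, 0, 3, 1, 0⟩, [-206391224651812907616, -1681436630408318993664, 8977983892575852772800, -15051682493126605347840, 11232228087309978534240, -3574177955026429435776, 303433097027156669664],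
    .mul (.c (-1)) (.mul (.mul (.add (.mul (.sub (.c (-12)) (.mul (.c 2) (.T))) (.P)) (.mul (.mul (.mul (.c 16) (.a)) (.add (.c 13) (.T))) (.s))) (.pow (.P) 2)) (.mul (.c (-2)) (.pow (.u) 2))),
    .c 0,
    .mul (.c (-1)) (.mul (.mul (.mul (.mul (.c 2) (.a)) (.add (.c 13) (.T))) (.pow (.P) 3)) (.mul (.c (-2)) (.pow (.u) 2))),
    .c 0⟩

/-- free value column 62 -/
def vf62 : VFz := ⟨⟨8, 0, 4, 0, 0⟩, [-51597806162953226904, -420359157602079748416, 2244495973143963193200, -3762920623281651336960, 2808057021827494633560, -893544488756607358944, 75858274256789167416],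
    .mul (.c (-1)) (.mul (.mul (.add (.mul (.sub (.c (-12)) (.mul (.c 2) (.T))) (.P)) (.mul (.mul (.mul (.c 16) (.a)) (.add (.c 13) (.T))) (.s))) (.pow (.P) 2)) (.add (.mul (.c 2) (.pow (.u) 2)) (.mul (.c 12) (.pow (.t) 2)))),
    .c 0,
    .mul (.c (-1)) (.mul (.mul (.mul (.mul (.c 2) (.a)) (.add (.c 13) (.T))) (.pow (.P) 3)) (.add (.mul (.c 2) (.pow (.u) 2)) (.mul (.c 12) (.pow (.t) 2)))),
    .c 0⟩

/-- free value column 63 -/
def vf63 : VFz := ⟨⟨8, 1, 0, 0, 0⟩, [3248391153373222566528, -18316667018569540892544, 43300724272513864281216, -55319356603560021598080, 40904844794629833064320, -17272170852507347107968, 3764871139355447214912, -310636885235457528384],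
    .c 0,
    .c 0,
    .c 0,
    .c 0⟩

/-- free value column 64 -/
def vf64 : VFz := ⟨⟨8, 1, 0, 0, 1⟩, [-3248391153373222566528, 18316667018569540892544, -43300724272513864281216, 55319356603560021598080, -40904844794629833064320, 17272170852507347107968, -3764871139355447214912, 310636885235457528384],
    .c 0,
    .c 0,
    .c 0,
    .c 0⟩

/-- free value column 65 -/
def vf65 : VFz := ⟨⟨8, 1, 1, 0, 0⟩, [38449839067647710976, 3187814855656489164288, -17088436307091454066944, 36647823228614689029120, -40842330973381809406080, 24899037760139322439296, -7816238819826846427200, 973880416821961556544],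
    .c 0,
    .c 0,
    .c 0,
    .c 0⟩

/-- free value column 66 -/
def vf66 : VFz := ⟨⟨8, 1, 1, 0, 1⟩, [3209941314305574855552, -21504481874226030056832, 60389160579605318348160, -91967179832174710627200, 81747175768011642470400, -42171208612646669547264, 11581109959182293642112, -1284517302057419084928],
    .c 0,
    .c 0,
    .c 0,
    .c 0⟩

/-- free value column 67 -/
def vf67 : VFz := ⟨⟨8, 1, 1, 1, 0⟩, [-1143144915314859553824, 9377125479295940463552, -31303605601937748774240, 49198071704089905455040, -42455833042249507476960, 22067867961515207587392, -6460647787268707792032, 642258651028709542464],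
    .mul (.c (-1)) (.mul (.mul (.mul (.add (.mul (.sub (.c (-12)) (.mul (.c 2) (.T))) (.P)) (.mul (.mul (.mul (.c 16) (.a)) (.add (.c 13) (.T))) (.s))) (.w)) (.pow (.P) 2)) (.c (-2))),
    .c 0,
    .mul (.c (-1)) (.mul (.mul (.mul (.mul (.mul (.c 2) (.a)) (.add (.c 13) (.T))) (.w)) (.pow (.P) 3)) (.c (-2))),
    .c 0⟩

/-- free value column 68 -/
def vf68 : VFz := ⟨⟨8, 1, 1, 1, 1⟩, [-412782449303625815232, -2894882745660306972480, 13447821391116070140000, -19305900207259413995520, 7258847199647808623040, 3070595222717669966592, -1587990140846310591936],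
    .mul (.c (-1)) (.mul (.mul (.mul (.add (.mul (.sub (.c (-12)) (.mul (.c 2) (.T))) (.P)) (.mul (.mul (.mul (.c 16) (.a)) (.add (.c 13) (.T))) (.s))) (.w)) (.pow (.P) 2)) (.mul (.c (-2)) (.d))),
    .c 0,
    .mul (.c (-1)) (.mul (.mul (.mul (.mul (.mul (.c 2) (.a)) (.add (.c 13) (.T))) (.w)) (.pow (.P) 3)) (.mul (.c (-2)) (.d))),
    .c 0⟩

/-- free value column 69 -/
def vf69 : VFz := ⟨⟨8, 1, 1, 1, 2⟩, [0, 425743310202101498880, 67395178981894458240, -4645161900147956503680, 9207572771056996496160, -6878343892375478472768, 1822953499329381872544],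
    .mul (.c (-1)) (.mul (.mul (.mul (.add (.mul (.sub (.c (-12)) (.mul (.c 2) (.T))) (.P)) (.mul (.mul (.mul (.c 16) (.a)) (.add (.c 13) (.T))) (.s))) (.w)) (.pow (.P) 2)) (.mul (.c (-2)) (.pow (.d) 2))),
    .mul (.c (-1)) (.mul (.mul (.mul (.add (.mul (.sub (.c (-12)) (.mul (.c 2) (.T))) (.P)) (.mul (.mul (.mul (.c 16) (.a)) (.add (.c 13) (.T))) (.s))) (.w)) (.pow (.P) 2)) (.mul (.c 2) (.pow (.t) 2))),
    .mul (.c (-1)) (.mul (.mul (.mul (.mul (.mul (.c 2) (.a)) (.add (.c 13) (.T))) (.w)) (.pow (.P) 3)) (.mul (.c (-2)) (.pow (.d) 2))),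
    .mul (.c (-1)) (.mul (.mul (.mul (.mul (.mul (.c 2) (.a)) (.add (.c 13) (.T))) (.w)) (.pow (.P) 3)) (.mul (.c 2) (.pow (.t) 2)))⟩

/-- free value column 70 -/
def vf70 : VFz := ⟨⟨8, 1, 2, 0, 0⟩, [-1241231500383463671264, 19704589536967568565696, -64862700190007191748640, 93685514300295313556160, -65805109532888056138080, 20643364686486222757440, -2688287561363448783648, 642258651028709542464],
    .mul (.c (-1)) (.mul (.mul (.mul (.add (.mul (.sub (.c (-12)) (.mul (.c 2) (.T))) (.P)) (.mul (.mul (.mul (.c 16) (.a)) (.add (.c 13) (.T))) (.s))) (.w)) (.pow (.P) 2)) (.c 2)),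
    .c 0,
    .mul (.c (-1)) (.mul (.mul (.mul (.mul (.mul (.c 2) (.a)) (.add (.c 13) (.T))) (.w)) (.pow (.P) 3)) (.c 2)),
    .c 0⟩

/-- free value column 71 -/
def vf71 : VFz := ⟨⟨8, 1, 2, 0, 1⟩, [-412782449303625815232, -5533837016781374997696, 22194533463259763118240, -22320182164655181381120, 839774065364119529280, 10146068526678526181376, -4490091468362590219584],
    .mul (.c (-1)) (.mul (.mul (.mul (.add (.mul (.sub (.c (-12)) (.mul (.c 2) (.T))) (.P)) (.mul (.mul (.mul (.c 16) (.a)) (.add (.c 13) (.T))) (.s))) (.w)) (.pow (.P) 2)) (.mul (.c 2) (.d))),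
    .c 0,
    .mul (.c (-1)) (.mul (.mul (.mul (.mul (.mul (.c 2) (.a)) (.add (.c 13) (.T))) (.w)) (.pow (.P) 3)) (.mul (.c 2) (.d))),
    .c 0⟩

/-- free value column 72 -/
def vf72 : VFz := ⟨⟨8, 1, 2, 0, 2⟩, [0, 425743310202101498880, 67395178981894458240, -4645161900147956503680, 9207572771056996496160, -6878343892375478472768, 1822953499329381872544],
    .mul (.c (-1)) (.mul (.mul (.mul (.add (.mul (.sub (.c (-12)) (.mul (.c 2) (.T))) (.P)) (.mul (.mul (.mul (.c 16) (.a)) (.add (.c 13) (.T))) (.s))) (.w)) (.pow (.P) 2)) (.mul (.c 2) (.pow (.d) 2))),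
    .mul (.c (-1)) (.mul (.mul (.mul (.add (.mul (.sub (.c (-12)) (.mul (.c 2) (.T))) (.P)) (.mul (.mul (.mul (.c 16) (.a)) (.add (.c 13) (.T))) (.s))) (.w)) (.pow (.P) 2)) (.mul (.c 2) (.pow (.t) 2))),
    .mul (.c (-1)) (.mul (.mul (.mul (.mul (.mul (.c 2) (.a)) (.add (.c 13) (.T))) (.w)) (.pow (.P) 3)) (.mul (.c 2) (.pow (.d) 2))),
    .mul (.c (-1)) (.mul (.mul (.mul (.mul (.mul (.c 2) (.a)) (.add (.c 13) (.T))) (.w)) (.pow (.P) 3)) (.mul (.c 2) (.pow (.t) 2)))⟩

/-- free value column 73 -/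
def vf73 : VFz := ⟨⟨8, 1, 2, 1, 0⟩, [619173673955438722848, 5313180121779479354496, -19365952547546774835120, 7074233649370324644480, 33845926517796244990320, -41735124153595143887616, 14249452166678229044544],
    .mul (.c (-1)) (.mul (.mul (.mul (.add (.mul (.sub (.c (-12)) (.mul (.c 2) (.T))) (.P)) (.mul (.mul (.mul (.c 16) (.a)) (.add (.c 13) (.T))) (.s))) (.w)) (.pow (.P) 2)) (.mul (.c (-2)) (.t))),
    .c 0,
    .mul (.c (-1)) (.mul (.mul (.mul (.mul (.mul (.c 2) (.a)) (.add (.c 13) (.T))) (.w)) (.pow (.P) 3)) (.mul (.c (-2)) (.t))),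
    .c 0⟩

/-- free value column 74 -/
def vf74 : VFz := ⟨⟨8, 1, 2, 1, 1⟩, [0, -1041662034742346140032, -2277405936790097546160, 20206287518463421764480, -36495204500054955564000, 26743050458062856491392, -7134316975014623870112],
    .mul (.c (-1)) (.mul (.mul (.mul (.add (.mul (.sub (.c (-12)) (.mul (.c 2) (.T))) (.P)) (.mul (.mul (.mul (.c 16) (.a)) (.add (.c 13) (.T))) (.s))) (.w)) (.pow (.P) 2)) (.mul (.mul (.c (-2)) (.t)) (.d))),
    .c 0,
    .mul (.c (-1)) (.mul (.mul (.mul (.mul (.mul (.c 2) (.a)) (.add (.c 13) (.T))) (.w)) (.pow (.P) 3)) (.mul (.mul (.c (-2)) (.t)) (.d))),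
    .c 0⟩

/-- free value column 75 -/
def vf75 : VFz := ⟨⟨8, 1, 2, 2, 0⟩, [0, 319307482651576124160, 50546384236420843680, -3483871425110967377760, 6905679578292747372120, -5158757919281608854576, 1367215124497036404408],
    .mul (.c (-1)) (.mul (.mul (.mul (.add (.mul (.sub (.c (-12)) (.mul (.c 2) (.T))) (.P)) (.mul (.mul (.mul (.c 16) (.a)) (.add (.c 13) (.T))) (.s))) (.w)) (.pow (.P) 2)) (.add (.mul (.c 2) (.pow (.u) 2)) (.mul (.c (-4)) (.pow (.t) 2)))),
    .c 0,
    .mul (.c (-1)) (.mul (.mul (.mul (.mul (.mul (.c 2) (.a)) (.add (.c 13) (.T))) (.w)) (.pow (.P) 3)) (.add (.mul (.c 2) (.pow (.u) 2)) (.mul (.c (-4)) (.pow (.t) 2)))),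
    .c 0⟩

/-- free value column 76 -/
def vf76 : VFz := ⟨⟨8, 1, 3, 0, 0⟩, [206391224651812907616, 3115539640662202615680, -16276402306829058423120, 34551848722544270732160, -41944547782808173142640, 28518460404198947739648, -8171370557469328233024],
    .mul (.c (-1)) (.mul (.mul (.mul (.add (.mul (.sub (.c (-12)) (.mul (.c 2) (.T))) (.P)) (.mul (.mul (.mul (.c 16) (.a)) (.add (.c 13) (.T))) (.s))) (.w)) (.pow (.P) 2)) (.mul (.c 6) (.t))),
    .c 0,
    .mul (.c (-1)) (.mul (.mul (.mul (.mul (.mul (.c 2) (.a)) (.add (.c 13) (.T))) (.w)) (.pow (.P) 3)) (.mul (.c 6) (.t))),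
    .c 0⟩

/-- free value column 77 -/
def vf77 : VFz := ⟨⟨8, 1, 3, 0, 1⟩, [0, -661311206066059855488, 2007825220862519713200, -1625639917871595749760, -335086584173030420640, 770325111439057399680, -157497022302903620064],
    .mul (.c (-1)) (.mul (.mul (.mul (.add (.mul (.sub (.c (-12)) (.mul (.c 2) (.T))) (.P)) (.mul (.mul (.mul (.c 16) (.a)) (.add (.c 13) (.T))) (.s))) (.w)) (.pow (.P) 2)) (.mul (.mul (.c 6) (.t)) (.d))),
    .c 0,
    .mul (.c (-1)) (.mul (.mul (.mul (.mul (.mul (.c 2) (.a)) (.add (.c 13) (.T))) (.w)) (.pow (.P) 3)) (.mul (.mul (.c 6) (.t)) (.d))),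
    .c 0⟩

/-- free value column 78 -/
def vf78 : VFz := ⟨⟨8, 1, 3, 1, 0⟩, [0, 425743310202101498880, 67395178981894458240, -4645161900147956503680, 9207572771056996496160, -6878343892375478472768, 1822953499329381872544],
    .mul (.c (-1)) (.mul (.mul (.mul (.add (.mul (.sub (.c (-12)) (.mul (.c 2) (.T))) (.P)) (.mul (.mul (.mul (.c 16) (.a)) (.add (.c 13) (.T))) (.s))) (.w)) (.pow (.P) 2)) (.mul (.c (-2)) (.pow (.u) 2))),
    .c 0,
    .mul (.c (-1)) (.mul (.mul (.mul (.mul (.mul (.c 2) (.a)) (.add (.c 13) (.T))) (.w)) (.pow (.P) 3)) (.mul (.c (-2)) (.pow (.u) 2))),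
    .c 0⟩

/-- free value column 79 -/
def vf79 : VFz := ⟨⟨8, 1, 4, 0, 0⟩, [0, 106435827550525374720, 16848794745473614560, -1161290475036989125920, 2301893192764249124040, -1719585973093869618192, 455738374832345468136],
    .mul (.c (-1)) (.mul (.mul (.mul (.add (.mul (.sub (.c (-12)) (.mul (.c 2) (.T))) (.P)) (.mul (.mul (.mul (.c 16) (.a)) (.add (.c 13) (.T))) (.s))) (.w)) (.pow (.P) 2)) (.add (.mul (.c 2) (.pow (.u) 2)) (.mul (.c 12) (.pow (.t) 2)))),
    .c 0,
    .mul (.c (-1)) (.mul (.mul (.mul (.mul (.mul (.c 2) (.a)) (.add (.c 13) (.T))) (.w)) (.pow (.P) 3)) (.add (.mul (.c 2) (.pow (.u) 2)) (.mul (.c 12) (.pow (.t) 2)))),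
    .c 0⟩

/-- free value column 80 -/
def vf80 : VFz := ⟨⟨8, 2, 0, 0, 0⟩, [-1624195576686611283264, 9158333509284770446272, -21650362136256932140608, 27659678301780010799040, -20452422397314916532160, 8636085426253673553984, -1882435569677723607456, 155318442617728764192],
    .c 0,
    .c 0,
    .c 0,
    .c 0⟩

/-- free value column 81 -/
def vf81 : VFz := ⟨⟨8, 2, 1, 0, 0⟩, [1604970657152787427776, -10752240937113015028416, 30194580289802659174080, -45983589916087355313600, 40873587884005821235200, -21085604306323334773632, 5790554979591146821056, -642258651028709542464],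
    .c 0,
    .c 0,
    .c 0,
    .c 0⟩

/-- free value column 82 -/
def vf82 : VFz := ⟨⟨8, 2, 1, 1, 0⟩, [-206391224651812907616, -2178729710747642549952, 10129815047302713191520, -13967420293716965187840, 3976810304312553664320, 4042909054758581070336, -1971549388333915475904],
    .mul (.c (-1)) (.mul (.mul (.mul (.add (.mul (.sub (.c (-12)) (.mul (.c 2) (.T))) (.P)) (.mul (.mul (.mul (.c 16) (.a)) (.add (.c 13) (.T))) (.s))) (.pow (.w) 2)) (.pow (.P) 2)) (.c (-2))),
    .c 0,
    .mul (.c (-1)) (.mul (.mul (.mul (.mul (.mul (.c 2) (.a)) (.add (.c 13) (.T))) (.pow (.w) 2)) (.pow (.P) 3)) (.c (-2))),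
    .c 0⟩

/-- free value column 83 -/
def vf83 : VFz := ⟨⟨8, 2, 1, 1, 1⟩, [0, 983107189870801055424, -1321624452337444906560, -182783266420716299520, -2934970107522702369120, 6800661995437783077696, -3344656033753832161728],
    .mul (.c (-1)) (.mul (.mul (.mul (.add (.mul (.sub (.c (-12)) (.mul (.c 2) (.T))) (.P)) (.mul (.mul (.mul (.c 16) (.a)) (.add (.c 13) (.T))) (.s))) (.pow (.w) 2)) (.pow (.P) 2)) (.mul (.c (-2)) (.d))),
    .c 0,
    .mul (.c (-1)) (.mul (.mul (.mul (.mul (.mul (.c 2) (.a)) (.add (.c 13) (.T))) (.pow (.w) 2)) (.pow (.P) 3)) (.mul (.c (-2)) (.d))),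
    .c 0⟩

/-- free value column 84 -/
def vf84 : VFz := ⟨⟨8, 2, 1, 1, 2⟩, [0, -22083622857525692736, -434618970322881839040, 2016559471804640380800, -3186159669856525995360, 2171829783924536980608, -545560426237830284736],
    .mul (.c (-1)) (.mul (.mul (.mul (.add (.mul (.sub (.c (-12)) (.mul (.c 2) (.T))) (.P)) (.mul (.mul (.mul (.c 16) (.a)) (.add (.c 13) (.T))) (.s))) (.pow (.w) 2)) (.pow (.P) 2)) (.mul (.c (-2)) (.pow (.d) 2))),
    .mul (.c (-1)) (.mul (.mul (.mul (.add (.mul (.sub (.c (-12)) (.mul (.c 2) (.T))) (.P)) (.mul (.mul (.mul (.c 16) (.a)) (.add (.c 13) (.T))) (.s))) (.pow (.w) 2)) (.pow (.P) 2)) (.mul (.c 2) (.pow (.t) 2))),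
    .mul (.c (-1)) (.mul (.mul (.mul (.mul (.mul (.c 2) (.a)) (.add (.c 13) (.T))) (.pow (.w) 2)) (.pow (.P) 3)) (.mul (.c (-2)) (.pow (.d) 2))),
    .mul (.c (-1)) (.mul (.mul (.mul (.mul (.mul (.c 2) (.a)) (.add (.c 13) (.T))) (.pow (.w) 2)) (.pow (.P) 3)) (.mul (.c 2) (.pow (.t) 2)))⟩

/-- free value column 85 -/
def vf85 : VFz := ⟨⟨8, 2, 2, 0, 0⟩, [-206391224651812907616, -2931284036592452818368, 6687334081275650843040, 6477821851664861268480, -24714964553633634571200, 20665770172539547910400, -5804519267404959244416],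
    .mul (.c (-1)) (.mul (.mul (.mul (.add (.mul (.sub (.c (-12)) (.mul (.c 2) (.T))) (.P)) (.mul (.mul (.mul (.c 16) (.a)) (.add (.c 13) (.T))) (.s))) (.pow (.w) 2)) (.pow (.P) 2)) (.c 2)),
    .c 0,
    .mul (.c (-1)) (.mul (.mul (.mul (.mul (.mul (.c 2) (.a)) (.add (.c 13) (.T))) (.pow (.w) 2)) (.pow (.P) 3)) (.c 2)),
    .c 0⟩

/-- free value column 86 -/
def vf86 : VFz := ⟨⟨8, 2, 2, 0, 1⟩, [0, 808200542367707711040, 3329681049556550095680, -26464102221389671238400, 52509899871176792335200, -43001356700637844891200, 12818711736022680790848],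
    .mul (.c (-1)) (.mul (.mul (.mul (.add (.mul (.sub (.c (-12)) (.mul (.c 2) (.T))) (.P)) (.mul (.mul (.mul (.c 16) (.a)) (.add (.c 13) (.T))) (.s))) (.pow (.w) 2)) (.pow (.P) 2)) (.mul (.c 2) (.d))),
    .c 0,
    .mul (.c (-1)) (.mul (.mul (.mul (.mul (.mul (.c 2) (.a)) (.add (.c 13) (.T))) (.pow (.w) 2)) (.pow (.P) 3)) (.mul (.c 2) (.d))),
    .c 0⟩

/-- free value column 87 -/
def vf87 : VFz := ⟨⟨8, 2, 2, 0, 2⟩, [0, -22083622857525692736, -434618970322881839040, 2016559471804640380800, -3186159669856525995360, 2171829783924536980608, -545560426237830284736],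
    .mul (.c (-1)) (.mul (.mul (.mul (.add (.mul (.sub (.c (-12)) (.mul (.c 2) (.T))) (.P)) (.mul (.mul (.mul (.c 16) (.a)) (.add (.c 13) (.T))) (.s))) (.pow (.w) 2)) (.pow (.P) 2)) (.mul (.c 2) (.pow (.d) 2))),
    .mul (.c (-1)) (.mul (.mul (.mul (.add (.mul (.sub (.c (-12)) (.mul (.c 2) (.T))) (.P)) (.mul (.mul (.mul (.c 16) (.a)) (.add (.c 13) (.T))) (.s))) (.pow (.w) 2)) (.pow (.P) 2)) (.mul (.c 2) (.pow (.t) 2))),
    .mul (.c (-1)) (.mul (.mul (.mul (.mul (.mul (.c 2) (.a)) (.add (.c 13) (.T))) (.pow (.w) 2)) (.pow (.P) 3)) (.mul (.c 2) (.pow (.d) 2))),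
    .mul (.c (-1)) (.mul (.mul (.mul (.mul (.mul (.c 2) (.a)) (.add (.c 13) (.T))) (.pow (.w) 2)) (.pow (.P) 3)) (.mul (.c 2) (.pow (.t) 2)))⟩

/-- free value column 88 -/
def vf88 : VFz := ⟨⟨8, 2, 2, 1, 0⟩, [0, -1377858864957492651552, -1420870715826280205760, 18966352362508870824960, -34309899645498475820640, 24284341117301767433568, -6143069092282578578304],
    .mul (.c (-1)) (.mul (.mul (.mul (.add (.mul (.sub (.c (-12)) (.mul (.c 2) (.T))) (.P)) (.mul (.mul (.mul (.c 16) (.a)) (.add (.c 13) (.T))) (.s))) (.pow (.w) 2)) (.pow (.P) 2)) (.mul (.c (-2)) (.t))),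
    .c 0,
    .mul (.c (-1)) (.mul (.mul (.mul (.mul (.mul (.c 2) (.a)) (.add (.c 13) (.T))) (.pow (.w) 2)) (.pow (.P) 3)) (.mul (.c (-2)) (.t))),
    .c 0⟩

/-- free value column 89 -/
def vf89 : VFz := ⟨⟨8, 2, 2, 1, 1⟩, [0, 57541835475487700064, 1361107577210198388480, -6088043484072184340160, 9362208777023610537120, -6177824058956493513024, 1487114209793788574544],
    .mul (.c (-1)) (.mul (.mul (.mul (.add (.mul (.sub (.c (-12)) (.mul (.c 2) (.T))) (.P)) (.mul (.mul (.mul (.c 16) (.a)) (.add (.c 13) (.T))) (.s))) (.pow (.w) 2)) (.pow (.P) 2)) (.mul (.mul (.c (-2)) (.t)) (.d))),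
    .c 0,
    .mul (.c (-1)) (.mul (.mul (.mul (.mul (.mul (.c 2) (.a)) (.add (.c 13) (.T))) (.pow (.w) 2)) (.pow (.P) 3)) (.mul (.mul (.c (-2)) (.t)) (.d))),
    .c 0⟩

/-- free value column 90 -/
def vf90 : VFz := ⟨⟨8, 2, 2, 2, 0⟩, [0, -16562717143144269552, -325964227742161379280, 1512419603853480285600, -2389619752392394496520, 1628872337943402735456, -409170319678372713552],
    .mul (.c (-1)) (.mul (.mul (.mul (.add (.mul (.sub (.c (-12)) (.mul (.c 2) (.T))) (.P)) (.mul (.mul (.mul (.c 16) (.a)) (.add (.c 13) (.T))) (.s))) (.pow (.w) 2)) (.pow (.P) 2)) (.add (.mul (.c 2) (.pow (.u) 2)) (.mul (.c (-4)) (.pow (.t) 2)))),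
    .c 0,
    .mul (.c (-1)) (.mul (.mul (.mul (.mul (.mul (.c 2) (.a)) (.add (.c 13) (.T))) (.pow (.w) 2)) (.pow (.P) 3)) (.add (.mul (.c 2) (.pow (.u) 2)) (.mul (.c (-4)) (.pow (.t) 2)))),
    .c 0⟩

/-- free value column 91 -/
def vf91 : VFz := ⟨⟨8, 2, 3, 0, 0⟩, [0, -413448867281016114912, -587185881392824983360, 7680533125301516712960, -15265030118155614145440, 11916353587898294379936, -3330986609986270050816],
    .mul (.c (-1)) (.mul (.mul (.mul (.add (.mul (.sub (.c (-12)) (.mul (.c 2) (.T))) (.P)) (.mul (.mul (.mul (.c 16) (.a)) (.add (.c 13) (.T))) (.s))) (.pow (.w) 2)) (.pow (.P) 2)) (.mul (.c 6) (.t))),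
    .c 0,
    .mul (.c (-1)) (.mul (.mul (.mul (.mul (.mul (.c 2) (.a)) (.add (.c 13) (.T))) (.pow (.w) 2)) (.pow (.P) 3)) (.mul (.c 6) (.t))),
    .c 0⟩

/-- free value column 92 -/
def vf92 : VFz := ⟨⟨8, 2, 3, 0, 1⟩, [0, 30792655954615070880, 377368304081328967680, -1978194403146377183040, 3382429902402493444320, -2509495076741654409408, 695127495157532564400],
    .mul (.c (-1)) (.mul (.mul (.mul (.add (.mul (.sub (.c (-12)) (.mul (.c 2) (.T))) (.P)) (.mul (.mul (.mul (.c 16) (.a)) (.add (.c 13) (.T))) (.s))) (.pow (.w) 2)) (.pow (.P) 2)) (.mul (.mul (.c 6) (.t)) (.d))),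
    .c 0,
    .mul (.c (-1)) (.mul (.mul (.mul (.mul (.mul (.c 2) (.a)) (.add (.c 13) (.T))) (.pow (.w) 2)) (.pow (.P) 3)) (.mul (.mul (.c 6) (.t)) (.d))),
    .c 0⟩

/-- free value column 93 -/
def vf93 : VFz := ⟨⟨8, 2, 3, 1, 0⟩, [0, -22083622857525692736, -434618970322881839040, 2016559471804640380800, -3186159669856525995360, 2171829783924536980608, -545560426237830284736],
    .mul (.c (-1)) (.mul (.mul (.mul (.add (.mul (.sub (.c (-12)) (.mul (.c 2) (.T))) (.P)) (.mul (.mul (.mul (.c 16) (.a)) (.add (.c 13) (.T))) (.s))) (.pow (.w) 2)) (.pow (.P) 2)) (.mul (.c (-2)) (.pow (.u) 2))),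
    .c 0,
    .mul (.c (-1)) (.mul (.mul (.mul (.mul (.mul (.c 2) (.a)) (.add (.c 13) (.T))) (.pow (.w) 2)) (.pow (.P) 3)) (.mul (.c (-2)) (.pow (.u) 2))),
    .c 0⟩

/-- free value column 94 -/
def vf94 : VFz := ⟨⟨8, 2, 4, 0, 0⟩, [0, -5520905714381423184, -108654742580720459760, 504139867951160095200, -796539917464131498840, 542957445981134245152, -136390106559457571184],
    .mul (.c (-1)) (.mul (.mul (.mul (.add (.mul (.sub (.c (-12)) (.mul (.c 2) (.T))) (.P)) (.mul (.mul (.mul (.c 16) (.a)) (.add (.c 13) (.T))) (.s))) (.pow (.w) 2)) (.pow (.P) 2)) (.add (.mul (.c 2) (.pow (.u) 2)) (.mul (.c 12) (.pow (.t) 2)))),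
    .c 0,
    .mul (.c (-1)) (.mul (.mul (.mul (.mul (.mul (.c 2) (.a)) (.add (.c 13) (.T))) (.pow (.w) 2)) (.pow (.P) 3)) (.add (.mul (.c 2) (.pow (.u) 2)) (.mul (.c 12) (.pow (.t) 2)))),
    .c 0⟩

/-- free value column 95 -/
def vf95 : VFz := ⟨⟨8, 3, 1, 1, 0⟩, [0, 469910555917152884352, 936633119627658136320, -8678280843757237265280, 15579892110770048486880, -11222003460224552433984, 2914074351805042442016],
    .mul (.c (-1)) (.mul (.mul (.mul (.add (.mul (.sub (.c (-12)) (.mul (.c 2) (.T))) (.P)) (.mul (.mul (.mul (.c 16) (.a)) (.add (.c 13) (.T))) (.s))) (.pow (.w) 3)) (.pow (.P) 2)) (.c (-2))),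
    .c 0,
    .mul (.c (-1)) (.mul (.mul (.mul (.mul (.mul (.c 2) (.a)) (.add (.c 13) (.T))) (.pow (.w) 3)) (.pow (.P) 3)) (.c (-2))),
    .c 0⟩

/-- free value column 96 -/
def vf96 : VFz := ⟨⟨8, 3, 1, 1, 1⟩, [0, -44167245715051385472, -869237940645763678080, 4033118943609280761600, -6372319339713051990720, 4343659567849073961216, -1091120852475660569472],
    .mul (.c (-1)) (.mul (.mul (.mul (.add (.mul (.sub (.c (-12)) (.mul (.c 2) (.T))) (.P)) (.mul (.mul (.mul (.c 16) (.a)) (.add (.c 13) (.T))) (.s))) (.pow (.w) 3)) (.pow (.P) 2)) (.mul (.c (-2)) (.d))),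
    .c 0,
    .mul (.c (-1)) (.mul (.mul (.mul (.mul (.mul (.c 2) (.a)) (.add (.c 13) (.T))) (.pow (.w) 3)) (.pow (.P) 3)) (.mul (.c (-2)) (.d))),
    .c 0⟩

/-- free value column 97 -/
def vf97 : VFz := ⟨⟨8, 3, 2, 0, 0⟩, [0, 469910555917152884352, 936633119627658136320, -8678280843757237265280, 15579892110770048486880, -11222003460224552433984, 2914074351805042442016],
    .mul (.c (-1)) (.mul (.mul (.mul (.add (.mul (.sub (.c (-12)) (.mul (.c 2) (.T))) (.P)) (.mul (.mul (.mul (.c 16) (.a)) (.add (.c 13) (.T))) (.s))) (.pow (.w) 3)) (.pow (.P) 2)) (.c 2)),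
    .c 0,
    .mul (.c (-1)) (.mul (.mul (.mul (.mul (.mul (.c 2) (.a)) (.add (.c 13) (.T))) (.pow (.w) 3)) (.pow (.P) 3)) (.c 2)),
    .c 0⟩

/-- free value column 98 -/
def vf98 : VFz := ⟨⟨8, 3, 2, 0, 1⟩, [0, -44167245715051385472, -869237940645763678080, 4033118943609280761600, -6372319339713051990720, 4343659567849073961216, -1091120852475660569472],
    .mul (.c (-1)) (.mul (.mul (.mul (.add (.mul (.sub (.c (-12)) (.mul (.c 2) (.T))) (.P)) (.mul (.mul (.mul (.c 16) (.a)) (.add (.c 13) (.T))) (.s))) (.pow (.w) 3)) (.pow (.P) 2)) (.mul (.c 2) (.d))),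
    .c 0,
    .mul (.c (-1)) (.mul (.mul (.mul (.mul (.mul (.c 2) (.a)) (.add (.c 13) (.T))) (.pow (.w) 3)) (.pow (.P) 3)) (.mul (.c 2) (.d))),
    .c 0⟩

/-- free value column 99 -/
def vf99 : VFz := ⟨⟨8, 3, 2, 1, 0⟩, [0, 66250868572577078208, 1303856910968645517120, -6049678415413921142400, 9558479009569577986080, -6515489351773610941824, 1636681278713490854208],
    .mul (.c (-1)) (.mul (.mul (.mul (.add (.mul (.sub (.c (-12)) (.mul (.c 2) (.T))) (.P)) (.mul (.mul (.mul (.c 16) (.a)) (.add (.c 13) (.T))) (.s))) (.pow (.w) 3)) (.pow (.P) 2)) (.mul (.c (-2)) (.t))),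
    .c 0,
    .mul (.c (-1)) (.mul (.mul (.mul (.mul (.mul (.c 2) (.a)) (.add (.c 13) (.T))) (.pow (.w) 3)) (.pow (.P) 3)) (.mul (.c (-2)) (.t))),
    .c 0⟩

/-- free value column 100 -/
def vf100 : VFz := ⟨⟨8, 3, 3, 0, 0⟩, [0, 22083622857525692736, 434618970322881839040, -2016559471804640380800, 3186159669856525995360, -2171829783924536980608, 545560426237830284736],
    .mul (.c (-1)) (.mul (.mul (.mul (.add (.mul (.sub (.c (-12)) (.mul (.c 2) (.T))) (.P)) (.mul (.mul (.mul (.c 16) (.a)) (.add (.c 13) (.T))) (.s))) (.pow (.w) 3)) (.pow (.P) 2)) (.mul (.c 6) (.t))),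
    .c 0,
    .mul (.c (-1)) (.mul (.mul (.mul (.mul (.mul (.c 2) (.a)) (.add (.c 13) (.T))) (.pow (.w) 3)) (.pow (.P) 3)) (.mul (.c 6) (.t))),
    .c 0⟩

/-- free value column 101 -/
def vf101 : VFz := ⟨⟨8, 4, 1, 1, 0⟩, [0, -22083622857525692736, -434618970322881839040, 2016559471804640380800, -3186159669856525995360, 2171829783924536980608, -545560426237830284736],
    .mul (.c (-1)) (.mul (.mul (.mul (.add (.mul (.sub (.c (-12)) (.mul (.c 2) (.T))) (.P)) (.mul (.mul (.mul (.c 16) (.a)) (.add (.c 13) (.T))) (.s))) (.pow (.w) 4)) (.pow (.P) 2)) (.c (-2))),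
    .c 0,
    .mul (.c (-1)) (.mul (.mul (.mul (.mul (.mul (.c 2) (.a)) (.add (.c 13) (.T))) (.pow (.w) 4)) (.pow (.P) 3)) (.c (-2))),
    .c 0⟩

/-- free value column 102 -/
def vf102 : VFz := ⟨⟨8, 4, 2, 0, 0⟩, [0, -22083622857525692736, -434618970322881839040, 2016559471804640380800, -3186159669856525995360, 2171829783924536980608, -545560426237830284736],
    .mul (.c (-1)) (.mul (.mul (.mul (.add (.mul (.sub (.c (-12)) (.mul (.c 2) (.T))) (.P)) (.mul (.mul (.mul (.c 16) (.a)) (.add (.c 13) (.T))) (.s))) (.pow (.w) 4)) (.pow (.P) 2)) (.c 2)),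
    .c 0,
    .mul (.c (-1)) (.mul (.mul (.mul (.mul (.mul (.c 2) (.a)) (.add (.c 13) (.T))) (.pow (.w) 4)) (.pow (.P) 3)) (.c 2)),
    .c 0⟩

/-- free value column 103 -/
def vf103 : VFz := ⟨⟨9, 0, 0, 0, 0⟩, [907021451853394637760, -5554141001746067203200, 14481914197301966862720, -20872286149675476297600, 18035473537573522168320, -9454918857448106060928, 2886438825462879855168, -457254266914636568832, 27752263592522606592],
    .c 0,
    .c 0,
    .c 0,
    .c 0⟩

/-- free value column 104 -/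
def vf104 : VFz := ⟨⟨9, 0, 0, 0, 1⟩, [-1814042903706789275520, 11108282003492134406400, -28963828394603933725440, 41744572299350952595200, -36070947075147044336640, 18909837714896212121856, -5772877650925759710336, 914508533829273137664, -55504527185045213184],
    .c 0,
    .c 0,
    .c 0,
    .c 0⟩

/-- free value column 105 -/
def vf105 : VFz := ⟨⟨9, 0, 0, 0, 2⟩, [907021451853394637760, -5554141001746067203200, 14481914197301966862720, -20872286149675476297600, 18035473537573522168320, -9454918857448106060928, 2886438825462879855168, -457254266914636568832, 27752263592522606592],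
    .c 0,
    .mul (.c (-1)) (.mul (.mul (.add (.mul (.sub (.c (-12)) (.mul (.c 2) (.T))) (.P)) (.mul (.mul (.mul (.c 18) (.a)) (.add (.c 13) (.T))) (.s))) (.P)) (.c 2)),
    .c 0,
    .mul (.c (-1)) (.mul (.mul (.mul (.mul (.c 2) (.a)) (.add (.c 13) (.T))) (.pow (.P) 2)) (.c 2))⟩

/-- free value column 106 -/
def vf106 : VFz := ⟨⟨9, 0, 1, 0, 0⟩, [851042161517862367872, -4061256591543537859200, 6991412719088659103424, -3754718500410771618816, -3515585381014492094400, 6268153088176218150912, -3577718991851024774208, 858895279415133018240, -60223783378046293824],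
    .c 0,
    .c 0,
    .c 0,
    .c 0⟩

/-- free value column 107 -/
def vf107 : VFz := ⟨⟨9, 0, 1, 0, 1⟩, [111958580671064539776, -2985768820405058688000, 14981002956426615518592, -34235135298529409357568, 43102117837176028525440, -31446143891248648423680, 12928315634627809258752, -2632299092659539174144, 175952093941137800832],
    .c 0,
    .c 0,
    .c 0,
    .c 0⟩

/-- free value column 108 -/
def vf108 : VFz := ⟨⟨9, 0, 1, 0, 2⟩, [-963000742188926907648, 7047025411948596547200, -21972415675515274622016, 37989853798940180976384, -39586532456161536431040, 25177990803072430272768, -9350596642776784484544, 1773403813244406155904, -115728310563091507008],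
    .c 0,
    .mul (.c (-1)) (.mul (.mul (.add (.mul (.sub (.c (-12)) (.mul (.c 2) (.T))) (.P)) (.mul (.mul (.mul (.c 18) (.a)) (.add (.c 13) (.T))) (.s))) (.P)) (.mul (.c 2) (.t))),
    .c 0,
    .mul (.c (-1)) (.mul (.mul (.mul (.mul (.c 2) (.a)) (.add (.c 13) (.T))) (.pow (.P) 2)) (.mul (.c 2) (.t)))⟩

/-- free value column 109 -/
def vf109 : VFz := ⟨⟨9, 0, 1, 1, 0⟩, [-8481082011755102751456, 50072318548644121906176, -127969570505903440545504, 170189171006658860687904, -107159182585697278895040, 7375982182333741372032, 24677199675496107326496, -8602984131010178896896, -101852178766830203712],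
    .mul (.c (-1)) (.mul (.mul (.add (.mul (.sub (.c (-12)) (.mul (.c 2) (.T))) (.P)) (.mul (.mul (.mul (.c 18) (.a)) (.add (.c 13) (.T))) (.s))) (.P)) (.c (-2))),
    .c 0,
    .mul (.c (-1)) (.mul (.mul (.mul (.mul (.c 2) (.a)) (.add (.c 13) (.T))) (.pow (.P) 2)) (.c (-2))),
    .c 0⟩

/-- free value column 110 -/
def vf110 : VFz := ⟨⟨9, 0, 1, 1, 1⟩, [2999832868151389172448, -30202281870741726651360, 117148505008107555624096, -241706398258336370827104, 297198654865842683903040, -223215870584618512683264, 96247815604558850625120, -18585985943526960669984, 115728310563091507008],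
    .mul (.c (-1)) (.mul (.mul (.add (.mul (.sub (.c (-12)) (.mul (.c 2) (.T))) (.P)) (.mul (.mul (.mul (.c 18) (.a)) (.add (.c 13) (.T))) (.s))) (.P)) (.mul (.c (-2)) (.d))),
    .c 0,
    .mul (.c (-1)) (.mul (.mul (.mul (.mul (.c 2) (.a)) (.add (.c 13) (.T))) (.pow (.P) 2)) (.mul (.c (-2)) (.d))),
    .c 0⟩

/-- free value column 111 -/
def vf111 : VFz := ⟨⟨9, 0, 1, 1, 2⟩, [40278350616068938464, 3396438888433585866144, -16842976948072077985728, 33419577693941709641280, -34496150928844579097760, 19608708430418386170528, -5853264926283136279008, 727389439790042746080],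
    .mul (.c (-1)) (.mul (.mul (.add (.mul (.sub (.c (-12)) (.mul (.c 2) (.T))) (.P)) (.mul (.mul (.mul (.c 18) (.a)) (.add (.c 13) (.T))) (.s))) (.P)) (.mul (.c (-2)) (.pow (.d) 2))),
    .mul (.c (-1)) (.mul (.mul (.add (.mul (.sub (.c (-12)) (.mul (.c 2) (.T))) (.P)) (.mul (.mul (.mul (.c 18) (.a)) (.add (.c 13) (.T))) (.s))) (.P)) (.mul (.c 2) (.pow (.t) 2))),
    .mul (.c (-1)) (.mul (.mul (.mul (.mul (.c 2) (.a)) (.add (.c 13) (.T))) (.pow (.P) 2)) (.mul (.c (-2)) (.pow (.d) 2))),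
    .mul (.c (-1)) (.mul (.mul (.mul (.mul (.c 2) (.a)) (.add (.c 13) (.T))) (.pow (.P) 2)) (.mul (.c 2) (.pow (.t) 2)))⟩

/-- free value column 112 -/
def vf112 : VFz := ⟨⟨9, 0, 2, 0, 0⟩, [7542658680462781450848, -34739530949625824282688, 64820699456030702192736, -48242594170570555750176, -22970710646741429994240, 72742497427199785453632, -52198483988153068998432, 13147316370164440132032, -101852178766830203712],
    .mul (.c (-1)) (.mul (.mul (.add (.mul (.sub (.c (-12)) (.mul (.c 2) (.T))) (.P)) (.mul (.mul (.mul (.c 18) (.a)) (.add (.c 13) (.T))) (.s))) (.P)) (.c 2)),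
    .c 0,
    .mul (.c (-1)) (.mul (.mul (.mul (.mul (.c 2) (.a)) (.add (.c 13) (.T))) (.pow (.P) 2)) (.c 2)),
    .c 0⟩

/-- free value column 113 -/
def vf113 : VFz := ⟨⟨9, 0, 2, 0, 1⟩, [-1234944786237811111008, 2522475493110190092384, -5831765864788694437152, 32048379884689170309216, -80040986238141294649920, 94425055256800107455616, -54133562613872736540000, 12129620557877977373856, 115728310563091507008],
    .mul (.c (-1)) (.mul (.mul (.add (.mul (.sub (.c (-12)) (.mul (.c 2) (.T))) (.P)) (.mul (.mul (.mul (.c 18) (.a)) (.add (.c 13) (.T))) (.s))) (.P)) (.mul (.c 2) (.d))),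
    .c 0,
    .mul (.c (-1)) (.mul (.mul (.mul (.mul (.c 2) (.a)) (.add (.c 13) (.T))) (.pow (.P) 2)) (.mul (.c 2) (.d))),
    .c 0⟩

/-- free value column 114 -/
def vf114 : VFz := ⟨⟨9, 0, 2, 0, 2⟩, [40278350616068938464, 3396438888433585866144, -16842976948072077985728, 33419577693941709641280, -34496150928844579097760, 19608708430418386170528, -5853264926283136279008, 727389439790042746080],
    .mul (.c (-1)) (.mul (.mul (.add (.mul (.sub (.c (-12)) (.mul (.c 2) (.T))) (.P)) (.mul (.mul (.mul (.c 18) (.a)) (.add (.c 13) (.T))) (.s))) (.P)) (.mul (.c 2) (.pow (.d) 2))),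
    .mul (.c (-1)) (.mul (.mul (.add (.mul (.sub (.c (-12)) (.mul (.c 2) (.T))) (.P)) (.mul (.mul (.mul (.c 18) (.a)) (.add (.c 13) (.T))) (.s))) (.P)) (.mul (.c 2) (.pow (.t) 2))),
    .mul (.c (-1)) (.mul (.mul (.mul (.mul (.c 2) (.a)) (.add (.c 13) (.T))) (.pow (.P) 2)) (.mul (.c 2) (.pow (.d) 2))),
    .mul (.c (-1)) (.mul (.mul (.mul (.mul (.c 2) (.a)) (.add (.c 13) (.T))) (.pow (.P) 2)) (.mul (.c 2) (.pow (.t) 2)))⟩

/-- free value column 115 -/
def vf115 : VFz := ⟨⟨9, 0, 2, 1, 0⟩, [-2916551257856144292384, 35352728580071775468960, -138251195703631724326704, 265523856493120090433568, -286136677572009670486080, 179044676662216787669520, -62305063270790344123392, 9775022301801548286768, -86796232922318630256],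
    .mul (.c (-1)) (.mul (.mul (.add (.mul (.sub (.c (-12)) (.mul (.c 2) (.T))) (.P)) (.mul (.mul (.mul (.c 18) (.a)) (.add (.c 13) (.T))) (.s))) (.P)) (.mul (.c (-2)) (.t))),
    .c 0,
    .mul (.c (-1)) (.mul (.mul (.mul (.mul (.c 2) (.a)) (.add (.c 13) (.T))) (.pow (.P) 2)) (.mul (.c (-2)) (.t))),
    .c 0⟩

/-- free value column 116 -/
def vf116 : VFz := ⟨⟨9, 0, 2, 1, 1⟩, [240820852587655918032, -12172660029721757507760, 51671373661084197279168, -87612404796963560273760, 69370838383322919381120, -21684580153580121287328, -1301697203052871720368, 1488309286323538210896],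
    .mul (.c (-1)) (.mul (.mul (.add (.mul (.sub (.c (-12)) (.mul (.c 2) (.T))) (.P)) (.mul (.mul (.mul (.c 18) (.a)) (.add (.c 13) (.T))) (.s))) (.P)) (.mul (.mul (.c (-2)) (.t)) (.d))),
    .c 0,
    .mul (.c (-1)) (.mul (.mul (.mul (.mul (.c 2) (.a)) (.add (.c 13) (.T))) (.pow (.P) 2)) (.mul (.mul (.c (-2)) (.t)) (.d))),
    .c 0⟩

/-- free value column 117 -/
def vf117 : VFz := ⟨⟨9, 0, 2, 2, 0⟩, [-5996861921969348602536, 36704766932552592717480, -100767207993462366128136, 125437253069134597565520, -59061103323850555920720, -4074813601397379490104, 7260998887117336613616, 545542079842532059560],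
    .mul (.c (-1)) (.mul (.mul (.add (.mul (.sub (.c (-12)) (.mul (.c 2) (.T))) (.P)) (.mul (.mul (.mul (.c 18) (.a)) (.add (.c 13) (.T))) (.s))) (.P)) (.add (.mul (.c 2) (.pow (.u) 2)) (.mul (.c (-4)) (.pow (.t) 2)))),
    .c 0,
    .mul (.c (-1)) (.mul (.mul (.mul (.mul (.c 2) (.a)) (.add (.c 13) (.T))) (.pow (.P) 2)) (.add (.mul (.c 2) (.pow (.u) 2)) (.mul (.c (-4)) (.pow (.t) 2)))),
    .c 0⟩

/-- free value column 118 -/
def vf118 : VFz := ⟨⟨9, 0, 2, 2, 1⟩, [1430935917768118085688, -13530367913995280851776, 55346554627679414211840, -128000985332205033659520, 179745627617150828098320, -139226340978490838881536, 44237855868883524174600],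
    .mul (.c (-1)) (.mul (.mul (.add (.mul (.sub (.c (-12)) (.mul (.c 2) (.T))) (.P)) (.mul (.mul (.mul (.c 18) (.a)) (.add (.c 13) (.T))) (.s))) (.P)) (.add (.mul (.mul (.c 2) (.pow (.u) 2)) (.d)) (.mul (.mul (.c (-4)) (.pow (.t) 2)) (.d)))),
    .c 0,
    .mul (.c (-1)) (.mul (.mul (.mul (.mul (.c 2) (.a)) (.add (.c 13) (.T))) (.pow (.P) 2)) (.add (.mul (.mul (.c 2) (.pow (.u) 2)) (.d)) (.mul (.mul (.c (-4)) (.pow (.t) 2)) (.d)))),
    .c 0⟩

/-- free value column 119 -/
def vf119 : VFz := ⟨⟨9, 0, 3, 0, 0⟩, [2114663918131493138592, -14719947614388835457184, 48906872235828137761776, -93855691918413070892064, 108565541400469817664000, -75431852137470812714640, 29541406922881014522816, -5092060729396971146544, -28932077640772876752],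
    .mul (.c (-1)) (.mul (.mul (.add (.mul (.sub (.c (-12)) (.mul (.c 2) (.T))) (.P)) (.mul (.mul (.mul (.c 18) (.a)) (.add (.c 13) (.T))) (.s))) (.P)) (.mul (.c 6) (.t))),
    .c 0,
    .mul (.c (-1)) (.mul (.mul (.mul (.mul (.c 2) (.a)) (.add (.c 13) (.T))) (.pow (.P) 2)) (.mul (.c 6) (.t))),
    .c 0⟩

/-- free value column 120 -/
def vf120 : VFz := ⟨⟨9, 0, 3, 0, 1⟩, [-401934255051931671888, -1413095524012585956816, 15700534131204114663744, -46065905978803278291360, 68613765332055397009920, -56750253568093423394784, 24714756908185416836400, -4397867045483709195216],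
    .mul (.c (-1)) (.mul (.mul (.add (.mul (.sub (.c (-12)) (.mul (.c 2) (.T))) (.P)) (.mul (.mul (.mul (.c 18) (.a)) (.add (.c 13) (.T))) (.s))) (.P)) (.mul (.mul (.c 6) (.t)) (.d))),
    .c 0,
    .mul (.c (-1)) (.mul (.mul (.mul (.mul (.c 2) (.a)) (.add (.c 13) (.T))) (.pow (.P) 2)) (.mul (.mul (.c 6) (.t)) (.d))),
    .c 0⟩

/-- free value column 121 -/
def vf121 : VFz := ⟨⟨9, 0, 3, 1, 0⟩, [40278350616068938464, 3396438888433585866144, -16842976948072077985728, 33419577693941709641280, -34496150928844579097760, 19608708430418386170528, -5853264926283136279008, 727389439790042746080],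
    .mul (.c (-1)) (.mul (.mul (.add (.mul (.sub (.c (-12)) (.mul (.c 2) (.T))) (.P)) (.mul (.mul (.mul (.c 18) (.a)) (.add (.c 13) (.T))) (.s))) (.P)) (.mul (.c (-2)) (.pow (.u) 2))),
    .c 0,
    .mul (.c (-1)) (.mul (.mul (.mul (.mul (.c 2) (.a)) (.add (.c 13) (.T))) (.pow (.P) 2)) (.mul (.c (-2)) (.pow (.u) 2))),
    .c 0⟩

/-- free value column 122 -/
def vf122 : VFz := ⟨⟨9, 0, 4, 0, 0⟩, [6037140272585417541000, -33308328044119006851336, 83924231045390288142408, -92017675375192887924240, 24564952395005976822960, 23683522031815765660632, -13114263813400472892624, 181847359947510686520],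
    .mul (.c (-1)) (.mul (.mul (.add (.mul (.sub (.c (-12)) (.mul (.c 2) (.T))) (.P)) (.mul (.mul (.mul (.c 18) (.a)) (.add (.c 13) (.T))) (.s))) (.P)) (.add (.mul (.c 2) (.pow (.u) 2)) (.mul (.c 12) (.pow (.t) 2)))),
    .c 0,
    .mul (.c (-1)) (.mul (.mul (.mul (.mul (.c 2) (.a)) (.add (.c 13) (.T))) (.pow (.P) 2)) (.add (.mul (.c 2) (.pow (.u) 2)) (.mul (.c 12) (.pow (.t) 2)))),
    .c 0⟩

/-- free value column 123 -/
def vf123 : VFz := ⟨⟨9, 0, 4, 0, 1⟩, [-1430935917768118085688, 13530367913995280851776, -55346554627679414211840, 128000985332205033659520, -179745627617150828098320, 139226340978490838881536, -44237855868883524174600],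
    .mul (.c (-1)) (.mul (.mul (.add (.mul (.sub (.c (-12)) (.mul (.c 2) (.T))) (.P)) (.mul (.mul (.mul (.c 18) (.a)) (.add (.c 13) (.T))) (.s))) (.P)) (.add (.mul (.mul (.c 2) (.pow (.u) 2)) (.d)) (.mul (.mul (.c 12) (.pow (.t) 2)) (.d)))),
    .c 0,
    .mul (.c (-1)) (.mul (.mul (.mul (.mul (.c 2) (.a)) (.add (.c 13) (.T))) (.pow (.P) 2)) (.add (.mul (.mul (.c 2) (.pow (.u) 2)) (.d)) (.mul (.mul (.c 12) (.pow (.t) 2)) (.d)))),
    .c 0⟩

/-- free value column 124 -/
def vf124 : VFz := ⟨⟨9, 1, 0, 0, 0⟩, [-1814042903706789275520, 11108282003492134406400, -28963828394603933725440, 41744572299350952595200, -36070947075147044336640, 18909837714896212121856, -5772877650925759710336, 914508533829273137664, -55504527185045213184],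
    .c 0,
    .c 0,
    .c 0,
    .c 0⟩

/-- free value column 125 -/
def vf125 : VFz := ⟨⟨9, 1, 0, 0, 1⟩, [1814042903706789275520, -11108282003492134406400, 28963828394603933725440, -41744572299350952595200, 36070947075147044336640, -18909837714896212121856, 5772877650925759710336, -914508533829273137664, 55504527185045213184],
    .c 0,
    .c 0,
    .c 0,
    .c 0⟩

/-- free value column 126 -/
def vf126 : VFz := ⟨⟨9, 1, 1, 0, 0⟩, [111958580671064539776, -2985768820405058688000, 14981002956426615518592, -34235135298529409357568, 43102117837176028525440, -31446143891248648423680, 12928315634627809258752, -2632299092659539174144, 175952093941137800832],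
    .c 0,
    .c 0,
    .c 0,
    .c 0⟩

/-- free value column 127 -/
def vf127 : VFz := ⟨⟨9, 1, 1, 0, 1⟩, [-1926001484377853815296, 14094050823897193094400, -43944831351030549244032, 75979707597880361952768, -79173064912323072862080, 50355981606144860545536, -18701193285553568969088, 3546807626488812311808, -231456621126183014016],
    .c 0,
    .c 0,
    .c 0,
    .c 0⟩

/-- free value column 128 -/
def vf128 : VFz := ⟨⟨9, 1, 1, 1, 0⟩, [882444040956789030720, -13839903188815768279488, 55658369571659430593472, -104829009186823600258944, 108578834313850694626560, -64395407663909202613824, 21057126495343057042560, -3228182692824491648064, 115728310563091507008],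
    .mul (.c (-1)) (.mul (.mul (.mul (.add (.mul (.sub (.c (-12)) (.mul (.c 2) (.T))) (.P)) (.mul (.mul (.mul (.c 18) (.a)) (.add (.c 13) (.T))) (.s))) (.w)) (.P)) (.c (-2))),
    .c 0,
    .mul (.c (-1)) (.mul (.mul (.mul (.mul (.mul (.c 2) (.a)) (.add (.c 13) (.T))) (.w)) (.pow (.P) 2)) (.c (-2))),
    .c 0⟩

/-- free value column 129 -/
def vf129 : VFz := ⟨⟨9, 1, 1, 1, 1⟩, [80556701232137876928, 6792877776867171732288, -33685953896144155971456, 66839155387883419282560, -68992301857689158195520, 39217416860836772341056, -11706529852566272558016, 1454778879580085492160],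
    .mul (.c (-1)) (.mul (.mul (.mul (.add (.mul (.sub (.c (-12)) (.mul (.c 2) (.T))) (.P)) (.mul (.mul (.mul (.c 18) (.a)) (.add (.c 13) (.T))) (.s))) (.w)) (.P)) (.mul (.c (-2)) (.d))),
    .c 0,
    .mul (.c (-1)) (.mul (.mul (.mul (.mul (.mul (.c 2) (.a)) (.add (.c 13) (.T))) (.w)) (.pow (.P) 2)) (.mul (.c (-2)) (.d))),
    .c 0⟩

/-- free value column 130 -/
def vf130 : VFz := ⟨⟨9, 1, 2, 0, 0⟩, [882444040956789030720, -13839903188815768279488, 55658369571659430593472, -104829009186823600258944, 108578834313850694626560, -64395407663909202613824, 21057126495343057042560, -3228182692824491648064, 115728310563091507008],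
    .mul (.c (-1)) (.mul (.mul (.mul (.add (.mul (.sub (.c (-12)) (.mul (.c 2) (.T))) (.P)) (.mul (.mul (.mul (.c 18) (.a)) (.add (.c 13) (.T))) (.s))) (.w)) (.P)) (.c 2)),
    .c 0,
    .mul (.c (-1)) (.mul (.mul (.mul (.mul (.mul (.c 2) (.a)) (.add (.c 13) (.T))) (.w)) (.pow (.P) 2)) (.c 2)),
    .c 0⟩

/-- free value column 131 -/
def vf131 : VFz := ⟨⟨9, 1, 2, 0, 1⟩, [80556701232137876928, 6792877776867171732288, -33685953896144155971456, 66839155387883419282560, -68992301857689158195520, 39217416860836772341056, -11706529852566272558016, 1454778879580085492160],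
    .mul (.c (-1)) (.mul (.mul (.mul (.add (.mul (.sub (.c (-12)) (.mul (.c 2) (.T))) (.P)) (.mul (.mul (.mul (.c 18) (.a)) (.add (.c 13) (.T))) (.s))) (.w)) (.P)) (.mul (.c 2) (.d))),
    .c 0,
    .mul (.c (-1)) (.mul (.mul (.mul (.mul (.mul (.c 2) (.a)) (.add (.c 13) (.T))) (.w)) (.pow (.P) 2)) (.mul (.c 2) (.d))),
    .c 0⟩

/-- free value column 132 -/
def vf132 : VFz := ⟨⟨9, 1, 2, 1, 0⟩, [-120835051848206815392, -10189316665300757598432, 50528930844216233957184, -100258733081825128923840, 103488452786533737293280, -58826125291255158511584, 17559794778849408837024, -2182168319370128238240],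
    .mul (.c (-1)) (.mul (.mul (.mul (.add (.mul (.sub (.c (-12)) (.mul (.c 2) (.T))) (.P)) (.mul (.mul (.mul (.c 18) (.a)) (.add (.c 13) (.T))) (.s))) (.w)) (.P)) (.mul (.c (-2)) (.t))),
    .c 0,
    .mul (.c (-1)) (.mul (.mul (.mul (.mul (.mul (.c 2) (.a)) (.add (.c 13) (.T))) (.w)) (.pow (.P) 2)) (.mul (.c (-2)) (.t))),
    .c 0⟩

/-- free value column 133 -/
def vf133 : VFz := ⟨⟨9, 1, 2, 2, 0⟩, [0, 4427607055417467850656, -15464634918816305673360, 803120626020785304960, 53170439942877398668800, -72155128727695155315264, 28846313296836373892736],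
    .mul (.c (-1)) (.mul (.mul (.mul (.add (.mul (.sub (.c (-12)) (.mul (.c 2) (.T))) (.P)) (.mul (.mul (.mul (.c 18) (.a)) (.add (.c 13) (.T))) (.s))) (.w)) (.P)) (.add (.mul (.c 2) (.pow (.u) 2)) (.mul (.c (-4)) (.pow (.t) 2)))),
    .c 0,
    .mul (.c (-1)) (.mul (.mul (.mul (.mul (.mul (.c 2) (.a)) (.add (.c 13) (.T))) (.w)) (.pow (.P) 2)) (.add (.mul (.c 2) (.pow (.u) 2)) (.mul (.c (-4)) (.pow (.t) 2)))),
    .c 0⟩

/-- free value column 134 -/
def vf134 : VFz := ⟨⟨9, 1, 2, 2, 1⟩, [0, -1425264433432318441872, 14151352857041668544640, -61760369563412177679840, 118930965354551234855880, -101357335914220081816848, 31353314270128140968496],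
    .mul (.c (-1)) (.mul (.mul (.mul (.add (.mul (.sub (.c (-12)) (.mul (.c 2) (.T))) (.P)) (.mul (.mul (.mul (.c 18) (.a)) (.add (.c 13) (.T))) (.s))) (.w)) (.P)) (.add (.mul (.mul (.c 2) (.pow (.u) 2)) (.d)) (.mul (.mul (.c (-4)) (.pow (.t) 2)) (.d)))),
    .c 0,
    .mul (.c (-1)) (.mul (.mul (.mul (.mul (.mul (.c 2) (.a)) (.add (.c 13) (.T))) (.w)) (.pow (.P) 2)) (.add (.mul (.mul (.c 2) (.pow (.u) 2)) (.d)) (.mul (.mul (.c (-4)) (.pow (.t) 2)) (.d)))),
    .c 0⟩

/-- free value column 135 -/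
def vf135 : VFz := ⟨⟨9, 1, 3, 0, 0⟩, [-40278350616068938464, -3396438888433585866144, 16842976948072077985728, -33419577693941709641280, 34496150928844579097760, -19608708430418386170528, 5853264926283136279008, -727389439790042746080],
    .mul (.c (-1)) (.mul (.mul (.mul (.add (.mul (.sub (.c (-12)) (.mul (.c 2) (.T))) (.P)) (.mul (.mul (.mul (.c 18) (.a)) (.add (.c 13) (.T))) (.s))) (.w)) (.P)) (.mul (.c 6) (.t))),
    .c 0,
    .mul (.c (-1)) (.mul (.mul (.mul (.mul (.mul (.c 2) (.a)) (.add (.c 13) (.T))) (.w)) (.pow (.P) 2)) (.mul (.c 6) (.t))),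
    .c 0⟩

/-- free value column 136 -/
def vf136 : VFz := ⟨⟨9, 1, 4, 0, 0⟩, [0, -4427607055417467850656, 15464634918816305673360, -803120626020785304960, -53170439942877398668800, 72155128727695155315264, -28846313296836373892736],
    .mul (.c (-1)) (.mul (.mul (.mul (.add (.mul (.sub (.c (-12)) (.mul (.c 2) (.T))) (.P)) (.mul (.mul (.mul (.c 18) (.a)) (.add (.c 13) (.T))) (.s))) (.w)) (.P)) (.add (.mul (.c 2) (.pow (.u) 2)) (.mul (.c 12) (.pow (.t) 2)))),
    .c 0,
    .mul (.c (-1)) (.mul (.mul (.mul (.mul (.mul (.c 2) (.a)) (.add (.c 13) (.T))) (.w)) (.pow (.P) 2)) (.add (.mul (.c 2) (.pow (.u) 2)) (.mul (.c 12) (.pow (.t) 2)))),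
    .c 0⟩

/-- free value column 137 -/
def vf137 : VFz := ⟨⟨9, 1, 4, 0, 1⟩, [0, 1425264433432318441872, -14151352857041668544640, 61760369563412177679840, -118930965354551234855880, 101357335914220081816848, -31353314270128140968496],
    .mul (.c (-1)) (.mul (.mul (.mul (.add (.mul (.sub (.c (-12)) (.mul (.c 2) (.T))) (.P)) (.mul (.mul (.mul (.c 18) (.a)) (.add (.c 13) (.T))) (.s))) (.w)) (.P)) (.add (.mul (.mul (.c 2) (.pow (.u) 2)) (.d)) (.mul (.mul (.c 12) (.pow (.t) 2)) (.d)))),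
    .c 0,
    .mul (.c (-1)) (.mul (.mul (.mul (.mul (.mul (.c 2) (.a)) (.add (.c 13) (.T))) (.w)) (.pow (.P) 2)) (.add (.mul (.mul (.c 2) (.pow (.u) 2)) (.d)) (.mul (.mul (.c 12) (.pow (.t) 2)) (.d)))),
    .c 0⟩

/-- free value column 138 -/
def vf138 : VFz := ⟨⟨9, 2, 0, 0, 0⟩, [907021451853394637760, -5554141001746067203200, 14481914197301966862720, -20872286149675476297600, 18035473537573522168320, -9454918857448106060928, 2886438825462879855168, -457254266914636568832, 27752263592522606592],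
    .c 0,
    .c 0,
    .c 0,
    .c 0⟩

/-- free value column 139 -/
def vf139 : VFz := ⟨⟨9, 2, 1, 0, 0⟩, [-963000742188926907648, 7047025411948596547200, -21972415675515274622016, 37989853798940180976384, -39586532456161536431040, 25177990803072430272768, -9350596642776784484544, 1773403813244406155904, -115728310563091507008],
    .c 0,
    .c 0,
    .c 0,
    .c 0⟩

/-- free value column 140 -/
def vf140 : VFz := ⟨⟨9, 2, 1, 1, 0⟩, [40278350616068938464, 3396438888433585866144, -16842976948072077985728, 33419577693941709641280, -34496150928844579097760, 19608708430418386170528, -5853264926283136279008, 727389439790042746080],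
    .mul (.c (-1)) (.mul (.mul (.mul (.add (.mul (.sub (.c (-12)) (.mul (.c 2) (.T))) (.P)) (.mul (.mul (.mul (.c 18) (.a)) (.add (.c 13) (.T))) (.s))) (.pow (.w) 2)) (.P)) (.c (-2))),
    .c 0,
    .mul (.c (-1)) (.mul (.mul (.mul (.mul (.mul (.c 2) (.a)) (.add (.c 13) (.T))) (.pow (.w) 2)) (.pow (.P) 2)) (.c (-2))),
    .c 0⟩

/-- free value column 141 -/
def vf141 : VFz := ⟨⟨9, 2, 2, 0, 0⟩, [40278350616068938464, 3396438888433585866144, -16842976948072077985728, 33419577693941709641280, -34496150928844579097760, 19608708430418386170528, -5853264926283136279008, 727389439790042746080],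
    .mul (.c (-1)) (.mul (.mul (.mul (.add (.mul (.sub (.c (-12)) (.mul (.c 2) (.T))) (.P)) (.mul (.mul (.mul (.c 18) (.a)) (.add (.c 13) (.T))) (.s))) (.pow (.w) 2)) (.P)) (.c 2)),
    .c 0,
    .mul (.c (-1)) (.mul (.mul (.mul (.mul (.mul (.c 2) (.a)) (.add (.c 13) (.T))) (.pow (.w) 2)) (.pow (.P) 2)) (.c 2)),
    .c 0⟩

/-- free value column 142 -/
def vf142 : VFz := ⟨⟨9, 2, 2, 2, 0⟩, [0, 375990860026641918240, -10725764617979684647920, 44511813397899818792640, -71643228049161163067400, 49875846813650900270592, -12718731098547018581400],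
    .mul (.c (-1)) (.mul (.mul (.mul (.add (.mul (.sub (.c (-12)) (.mul (.c 2) (.T))) (.P)) (.mul (.mul (.mul (.c 18) (.a)) (.add (.c 13) (.T))) (.s))) (.pow (.w) 2)) (.P)) (.add (.mul (.c 2) (.pow (.u) 2)) (.mul (.c (-4)) (.pow (.t) 2)))),
    .c 0,
    .mul (.c (-1)) (.mul (.mul (.mul (.mul (.mul (.c 2) (.a)) (.add (.c 13) (.T))) (.pow (.w) 2)) (.pow (.P) 2)) (.add (.mul (.c 2) (.pow (.u) 2)) (.mul (.c (-4)) (.pow (.t) 2)))),
    .c 0⟩

/-- free value column 143 -/
def vf143 : VFz := ⟨⟨9, 2, 2, 2, 1⟩, [0, 159041348713840018608, -856511227213110083160, 3439077383023762465440, -11226094022985973906320, 15427553962652857915344, -6948440091806708483352],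
    .mul (.c (-1)) (.mul (.mul (.mul (.add (.mul (.sub (.c (-12)) (.mul (.c 2) (.T))) (.P)) (.mul (.mul (.mul (.c 18) (.a)) (.add (.c 13) (.T))) (.s))) (.pow (.w) 2)) (.P)) (.add (.mul (.mul (.c 2) (.pow (.u) 2)) (.d)) (.mul (.mul (.c (-4)) (.pow (.t) 2)) (.d)))),
    .c 0,
    .mul (.c (-1)) (.mul (.mul (.mul (.mul (.mul (.c 2) (.a)) (.add (.c 13) (.T))) (.pow (.w) 2)) (.pow (.P) 2)) (.add (.mul (.mul (.c 2) (.pow (.u) 2)) (.d)) (.mul (.mul (.c (-4)) (.pow (.t) 2)) (.d)))),
    .c 0⟩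

/-- free value column 144 -/
def vf144 : VFz := ⟨⟨9, 2, 4, 0, 0⟩, [0, -375990860026641918240, 10725764617979684647920, -44511813397899818792640, 71643228049161163067400, -49875846813650900270592, 12718731098547018581400],
    .mul (.c (-1)) (.mul (.mul (.mul (.add (.mul (.sub (.c (-12)) (.mul (.c 2) (.T))) (.P)) (.mul (.mul (.mul (.c 18) (.a)) (.add (.c 13) (.T))) (.s))) (.pow (.w) 2)) (.P)) (.add (.mul (.c 2) (.pow (.u) 2)) (.mul (.c 12) (.pow (.t) 2)))),
    .c 0,
    .mul (.c (-1)) (.mul (.mul (.mul (.mul (.mul (.c 2) (.a)) (.add (.c 13) (.T))) (.pow (.w) 2)) (.pow (.P) 2)) (.add (.mul (.c 2) (.pow (.u) 2)) (.mul (.c 12) (.pow (.t) 2)))),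
    .c 0⟩

/-- free value column 145 -/
def vf145 : VFz := ⟨⟨9, 2, 4, 0, 1⟩, [0, -159041348713840018608, 856511227213110083160, -3439077383023762465440, 11226094022985973906320, -15427553962652857915344, 6948440091806708483352],
    .mul (.c (-1)) (.mul (.mul (.mul (.add (.mul (.sub (.c (-12)) (.mul (.c 2) (.T))) (.P)) (.mul (.mul (.mul (.c 18) (.a)) (.add (.c 13) (.T))) (.s))) (.pow (.w) 2)) (.P)) (.add (.mul (.mul (.c 2) (.pow (.u) 2)) (.d)) (.mul (.mul (.c 12) (.pow (.t) 2)) (.d)))),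
    .c 0,
    .mul (.c (-1)) (.mul (.mul (.mul (.mul (.mul (.c 2) (.a)) (.add (.c 13) (.T))) (.pow (.w) 2)) (.pow (.P) 2)) (.add (.mul (.mul (.c 2) (.pow (.u) 2)) (.d)) (.mul (.mul (.c 12) (.pow (.t) 2)) (.d)))),
    .c 0⟩

/-- free value column 146 -/
def vf146 : VFz := ⟨⟨10, 0, 0, 0, 0⟩, [-211474295106809507136, 1380821834082389969088, -3879422441301033139968, 6122498419970432188416, -5946647222236053715200, 3661679040985956751488, -1412608815097613392896, 314682659041073057280, -27358372966059705024, -2170807372282506048],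
    .c 0,
    .c 0,
    .c 0,
    .c 0⟩

/-- free value column 147 -/
def vf147 : VFz := ⟨⟨10, 0, 0, 0, 1⟩, [422948590213619014272, -2761643668164779938176, 7758844882602066279936, -12244996839940864376832, 11893294444472107430400, -7323358081971913502976, 2825217630195226785792, -629365318082146114560, 54716745932119410048, 4341614744565012096],
    .c 0,
    .c 0,
    .c 0,
    .c 0⟩

/-- free value column 148 -/
def vf148 : VFz := ⟨⟨10, 0, 0, 0, 2⟩, [-211474295106809507136, 1380821834082389969088, -3879422441301033139968, 6122498419970432188416, -5946647222236053715200, 3661679040985956751488, -1412608815097613392896, 314682659041073057280, -27358372966059705024, -2170807372282506048],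
    .c 0,
    .mul (.c (-1)) (.mul (.add (.mul (.sub (.c (-12)) (.mul (.c 2) (.T))) (.P)) (.mul (.mul (.mul (.c 20) (.a)) (.add (.c 13) (.T))) (.s))) (.c 2)),
    .c 0,
    .mul (.c (-1)) (.mul (.mul (.mul (.mul (.c 2) (.a)) (.add (.c 13) (.T))) (.P)) (.c 2))⟩

/-- free value column 149 -/
def vf149 : VFz := ⟨⟨10, 0, 1, 0, 0⟩, [-192422280773700484416, 938299029395073562944, -1548132127699595832576, 356975583542816120064, 2058802230968441509824, -2905268232257516938176, 1696891339424123623872, -436116721071255981120, 29100882500991258048, 1870295970623161536],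
    .c 0,
    .c 0,
    .c 0,
    .c 0⟩

/-- free value column 150 -/
def vf150 : VFz := ⟨⟨10, 0, 1, 0, 1⟩, [-38104028666218045440, 885045609374632812288, -4662580627202874614784, 11531045672855232136704, -16010898906408990450048, 13133894546486947379328, -6219000309043474033536, 1501598760224658076800, -112918510934101926144, -8082206685811335168],
    .c 0,
    .c 0,
    .c 0,
    .c 0⟩

/-- free value column 151 -/
def vf151 : VFz := ⟨⟨10, 0, 1, 0, 2⟩, [230526309439918529856, -1823344638769706375232, 6210712754902470447360, -11888021256398048256768, 13952096675440548940224, -10228626314229430441152, 4522108969619350409664, -1065482039153402095680, 83817628433110668096, 6211910715188173632],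
    .c 0,
    .mul (.c (-1)) (.mul (.add (.mul (.sub (.c (-12)) (.mul (.c 2) (.T))) (.P)) (.mul (.mul (.mul (.c 20) (.a)) (.add (.c 13) (.T))) (.s))) (.mul (.c 2) (.t))),
    .c 0,
    .mul (.c (-1)) (.mul (.mul (.mul (.mul (.c 2) (.a)) (.add (.c 13) (.T))) (.P)) (.mul (.c 2) (.t)))⟩

/-- free value column 152 -/
def vf152 : VFz := ⟨⟨10, 0, 1, 1, 0⟩, [2099479200766839466848, -12918577616532910262304, 33854339680536412765728, -39667710246332169770496, 8291150665303653149184, 21994481034585094508928, -14320470094115893055712, -1655256211671034732032, 2317437080430961009248, 5126507029046920608],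
    .mul (.c (-1)) (.mul (.add (.mul (.sub (.c (-12)) (.mul (.c 2) (.T))) (.P)) (.mul (.mul (.mul (.c 20) (.a)) (.add (.c 13) (.T))) (.s))) (.c (-2))),
    .c 0,
    .mul (.c (-1)) (.mul (.mul (.mul (.mul (.c 2) (.a)) (.add (.c 13) (.T))) (.P)) (.c (-2))),
    .c 0⟩

/-- free value column 153 -/
def vf153 : VFz := ⟨⟨10, 0, 1, 1, 1⟩, [-927458149670199096768, 10006674492647893552128, -41256404293983266789856, 98056537527944475567360, -155978971054103229649344, 169621130230846020207936, -118872846339827513143392, 47420656165818256898304, -8063106668957249372736, -6211910715188173632],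
    .mul (.c (-1)) (.mul (.add (.mul (.sub (.c (-12)) (.mul (.c 2) (.T))) (.P)) (.mul (.mul (.mul (.c 20) (.a)) (.add (.c 13) (.T))) (.s))) (.mul (.c (-2)) (.d))),
    .c 0,
    .mul (.c (-1)) (.mul (.mul (.mul (.mul (.c 2) (.a)) (.add (.c 13) (.T))) (.P)) (.mul (.c (-2)) (.d))),
    .c 0⟩

/-- free value column 154 -/
def vf154 : VFz := ⟨⟨10, 0, 1, 1, 2⟩, [166112874035743969152, -2119106374217058792384, 8233252535772279654912, -15673933044567106545600, 17116796304625379544000, -11561907028287615592320, 5074624985178014648928, -1455722468559386104896, 219882216019749218208],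
    .mul (.c (-1)) (.mul (.add (.mul (.sub (.c (-12)) (.mul (.c 2) (.T))) (.P)) (.mul (.mul (.mul (.c 20) (.a)) (.add (.c 13) (.T))) (.s))) (.mul (.c (-2)) (.pow (.d) 2))),
    .mul (.c (-1)) (.mul (.add (.mul (.sub (.c (-12)) (.mul (.c 2) (.T))) (.P)) (.mul (.mul (.mul (.c 20) (.a)) (.add (.c 13) (.T))) (.s))) (.mul (.c 2) (.pow (.t) 2))),
    .mul (.c (-1)) (.mul (.mul (.mul (.mul (.c 2) (.a)) (.add (.c 13) (.T))) (.P)) (.mul (.c (-2)) (.pow (.d) 2))),
    .mul (.c (-1)) (.mul (.mul (.mul (.mul (.c 2) (.a)) (.add (.c 13) (.T))) (.P)) (.mul (.c 2) (.pow (.t) 2)))⟩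

/-- free value column 155 -/
def vf155 : VFz := ⟨⟨10, 0, 2, 0, 0⟩, [-1517675128922323975968, 6414497424641769896160, -8845831540487945701152, -9333699935627707645824, 47899988072592150104064, -61913868678633229824384, 32101329188613009780000, -3072470144713468611840, -1737395764491300941664, 5126507029046920608],
    .mul (.c (-1)) (.mul (.add (.mul (.sub (.c (-12)) (.mul (.c 2) (.T))) (.P)) (.mul (.mul (.mul (.c 20) (.a)) (.add (.c 13) (.T))) (.s))) (.c 2)),
    .c 0,
    .mul (.c (-1)) (.mul (.mul (.mul (.mul (.c 2) (.a)) (.add (.c 13) (.T))) (.P)) (.c 2)),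
    .c 0⟩

/-- free value column 156 -/
def vf156 : VFz := ⟨⟨10, 0, 2, 0, 1⟩, [-198045965352613839552, 2116440281759754367872, -4098031358910792724512, -11584762836879952871424, 59607592484720613592896, -102916249489236696956352, 89530128459876753728352, -39466802213273908287360, 7015942548012031163712, -6211910715188173632],
    .mul (.c (-1)) (.mul (.add (.mul (.sub (.c (-12)) (.mul (.c 2) (.T))) (.P)) (.mul (.mul (.mul (.c 20) (.a)) (.add (.c 13) (.T))) (.s))) (.mul (.c 2) (.d))),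
    .c 0,
    .mul (.c (-1)) (.mul (.mul (.mul (.mul (.c 2) (.a)) (.add (.c 13) (.T))) (.P)) (.mul (.c 2) (.d))),
    .c 0⟩

/-- free value column 157 -/
def vf157 : VFz := ⟨⟨10, 0, 2, 0, 2⟩, [166112874035743969152, -2119106374217058792384, 8233252535772279654912, -15673933044567106545600, 17116796304625379544000, -11561907028287615592320, 5074624985178014648928, -1455722468559386104896, 219882216019749218208],
    .mul (.c (-1)) (.mul (.add (.mul (.sub (.c (-12)) (.mul (.c 2) (.T))) (.P)) (.mul (.mul (.mul (.c 20) (.a)) (.add (.c 13) (.T))) (.s))) (.mul (.c 2) (.pow (.d) 2))),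
    .mul (.c (-1)) (.mul (.add (.mul (.sub (.c (-12)) (.mul (.c 2) (.T))) (.P)) (.mul (.mul (.mul (.c 20) (.a)) (.add (.c 13) (.T))) (.s))) (.mul (.c 2) (.pow (.t) 2))),
    .mul (.c (-1)) (.mul (.mul (.mul (.mul (.c 2) (.a)) (.add (.c 13) (.T))) (.P)) (.mul (.c 2) (.pow (.d) 2))),
    .mul (.c (-1)) (.mul (.mul (.mul (.mul (.c 2) (.a)) (.add (.c 13) (.T))) (.P)) (.mul (.c 2) (.pow (.t) 2)))⟩

/-- free value column 158 -/
def vf158 : VFz := ⟨⟨10, 0, 2, 1, 0⟩, [1443285279718600080672, -14800313942669352372912, 56856732546846316187376, -113649658208290687470624, 132742888112700682322688, -94175458744337185387536, 40096419529571620199712, -9469545222585816203472, 950991716009431513872, 4658933036391130224],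
    .mul (.c (-1)) (.mul (.add (.mul (.sub (.c (-12)) (.mul (.c 2) (.T))) (.P)) (.mul (.mul (.mul (.c 20) (.a)) (.add (.c 13) (.T))) (.s))) (.mul (.c (-2)) (.t))),
    .c 0,
    .mul (.c (-1)) (.mul (.mul (.mul (.mul (.c 2) (.a)) (.add (.c 13) (.T))) (.P)) (.mul (.c (-2)) (.t))),
    .c 0⟩

/-- free value column 159 -/
def vf159 : VFz := ⟨⟨10, 0, 2, 1, 1⟩, [-564031649117982230640, 6293076399591626971872, -21432958012833703159824, 32507021052770226161472, -21675559374448803532800, 1637845985688354685152, 5191260582438429027984, -2070460415193150786624, 113805431105002863408],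
    .mul (.c (-1)) (.mul (.add (.mul (.sub (.c (-12)) (.mul (.c 2) (.T))) (.P)) (.mul (.mul (.mul (.c 20) (.a)) (.add (.c 13) (.T))) (.s))) (.mul (.mul (.c (-2)) (.t)) (.d))),
    .c 0,
    .mul (.c (-1)) (.mul (.mul (.mul (.mul (.c 2) (.a)) (.add (.c 13) (.T))) (.P)) (.mul (.mul (.c (-2)) (.t)) (.d))),
    .c 0⟩

/-- free value column 160 -/
def vf160 : VFz := ⟨⟨10, 0, 2, 2, 0⟩, [6151655340458208283248, -39777247493332487296704, 122574672130025033676576, -235051121314942279205040, 287770450582844007891840, -206254930685471463912480, 72501347533551960998520, -8079737755147792349616, 164911662014811913656],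
    .mul (.c (-1)) (.mul (.add (.mul (.sub (.c (-12)) (.mul (.c 2) (.T))) (.P)) (.mul (.mul (.mul (.c 20) (.a)) (.add (.c 13) (.T))) (.s))) (.add (.mul (.c 2) (.pow (.u) 2)) (.mul (.c (-4)) (.pow (.t) 2)))),
    .c 0,
    .mul (.c (-1)) (.mul (.mul (.mul (.mul (.c 2) (.a)) (.add (.c 13) (.T))) (.P)) (.add (.mul (.c 2) (.pow (.u) 2)) (.mul (.c (-4)) (.pow (.t) 2)))),
    .c 0⟩

/-- free value column 161 -/
def vf161 : VFz := ⟨⟨10, 0, 2, 2, 1⟩, [-1430935917768118085688, 14922302834839129309944, -74471601717444333454416, 213711953424235486693200, -346727826068670261731880, 305380537802680959355464, -132521816287271845403424, 21137385929398983316800],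
    .mul (.c (-1)) (.mul (.add (.mul (.sub (.c (-12)) (.mul (.c 2) (.T))) (.P)) (.mul (.mul (.mul (.c 20) (.a)) (.add (.c 13) (.T))) (.s))) (.add (.mul (.mul (.c 2) (.pow (.u) 2)) (.d)) (.mul (.mul (.c (-4)) (.pow (.t) 2)) (.d)))),
    .c 0,
    .mul (.c (-1)) (.mul (.mul (.mul (.mul (.c 2) (.a)) (.add (.c 13) (.T))) (.P)) (.add (.mul (.mul (.c 2) (.pow (.u) 2)) (.d)) (.mul (.mul (.c (-4)) (.pow (.t) 2)) (.d)))),
    .c 0⟩

/-- free value column 162 -/
def vf162 : VFz := ⟨⟨10, 0, 3, 0, 0⟩, [-548307474135705674208, 4500543807031410828144, -17713009648854727120368, 39065904773624213031456, -50323606218758615206464, 37699204316957292577104, -15275810619240211194336, 2581173309194869688208, 12354776502676027056, 1552977678797043408],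
    .mul (.c (-1)) (.mul (.add (.mul (.sub (.c (-12)) (.mul (.c 2) (.T))) (.P)) (.mul (.mul (.mul (.c 20) (.a)) (.add (.c 13) (.T))) (.s))) (.mul (.c 6) (.t))),
    .c 0,
    .mul (.c (-1)) (.mul (.mul (.mul (.mul (.c 2) (.a)) (.add (.c 13) (.T))) (.P)) (.mul (.c 6) (.t))),
    .c 0⟩

/-- free value column 163 -/
def vf163 : VFz := ⟨⟨10, 0, 3, 0, 1⟩, [-100419847024993645968, 2183349097276608197664, -11500052130255415459824, 30188711125498200020928, -46791625844052714643200, 44609782127462107684128, -25489760523150487623696, 7893350289430695206208, -993334295183999736240],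
    .mul (.c (-1)) (.mul (.add (.mul (.sub (.c (-12)) (.mul (.c 2) (.T))) (.P)) (.mul (.mul (.mul (.c 20) (.a)) (.add (.c 13) (.T))) (.s))) (.mul (.mul (.c 6) (.t)) (.d))),
    .c 0,
    .mul (.c (-1)) (.mul (.mul (.mul (.mul (.c 2) (.a)) (.add (.c 13) (.T))) (.P)) (.mul (.mul (.c 6) (.t)) (.d))),
    .c 0⟩

/-- free value column 164 -/
def vf164 : VFz := ⟨⟨10, 0, 3, 1, 0⟩, [166112874035743969152, -2119106374217058792384, 8233252535772279654912, -15673933044567106545600, 17116796304625379544000, -11561907028287615592320, 5074624985178014648928, -1455722468559386104896, 219882216019749218208],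
    .mul (.c (-1)) (.mul (.add (.mul (.sub (.c (-12)) (.mul (.c 2) (.T))) (.P)) (.mul (.mul (.mul (.c 20) (.a)) (.add (.c 13) (.T))) (.s))) (.mul (.c (-2)) (.pow (.u) 2))),
    .c 0,
    .mul (.c (-1)) (.mul (.mul (.mul (.mul (.c 2) (.a)) (.add (.c 13) (.T))) (.P)) (.mul (.c (-2)) (.pow (.u) 2))),
    .c 0⟩

/-- free value column 165 -/
def vf165 : VFz := ⟨⟨10, 0, 4, 0, 0⟩, [-5985542466422464314096, 37658141119115428504320, -114341419594252754021664, 219377188270375172659440, -270653654278218628347840, 194693023657183848320160, -67426722548373946349592, 6624015286588406244720, 54970554004937304552],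
    .mul (.c (-1)) (.mul (.add (.mul (.sub (.c (-12)) (.mul (.c 2) (.T))) (.P)) (.mul (.mul (.mul (.c 20) (.a)) (.add (.c 13) (.T))) (.s))) (.add (.mul (.c 2) (.pow (.u) 2)) (.mul (.c 12) (.pow (.t) 2)))),
    .c 0,
    .mul (.c (-1)) (.mul (.mul (.mul (.mul (.c 2) (.a)) (.add (.c 13) (.T))) (.P)) (.add (.mul (.c 2) (.pow (.u) 2)) (.mul (.c 12) (.pow (.t) 2)))),
    .c 0⟩

/-- free value column 166 -/
def vf166 : VFz := ⟨⟨10, 0, 4, 0, 1⟩, [1430935917768118085688, -14922302834839129309944, 74471601717444333454416, -213711953424235486693200, 346727826068670261731880, -305380537802680959355464, 132521816287271845403424, -21137385929398983316800],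
    .mul (.c (-1)) (.mul (.add (.mul (.sub (.c (-12)) (.mul (.c 2) (.T))) (.P)) (.mul (.mul (.mul (.c 20) (.a)) (.add (.c 13) (.T))) (.s))) (.add (.mul (.mul (.c 2) (.pow (.u) 2)) (.d)) (.mul (.mul (.c 12) (.pow (.t) 2)) (.d)))),
    .c 0,
    .mul (.c (-1)) (.mul (.mul (.mul (.mul (.c 2) (.a)) (.add (.c 13) (.T))) (.P)) (.add (.mul (.mul (.c 2) (.pow (.u) 2)) (.d)) (.mul (.mul (.c 12) (.pow (.t) 2)) (.d)))),
    .c 0⟩

/-- free value column 167 -/
def vf167 : VFz := ⟨⟨10, 1, 0, 0, 0⟩, [422948590213619014272, -2761643668164779938176, 7758844882602066279936, -12244996839940864376832, 11893294444472107430400, -7323358081971913502976, 2825217630195226785792, -629365318082146114560, 54716745932119410048, 4341614744565012096],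
    .c 0,
    .c 0,
    .c 0,
    .c 0⟩

/-- free value column 168 -/
def vf168 : VFz := ⟨⟨10, 1, 0, 0, 1⟩, [-422948590213619014272, 2761643668164779938176, -7758844882602066279936, 12244996839940864376832, -11893294444472107430400, 7323358081971913502976, -2825217630195226785792, 629365318082146114560, -54716745932119410048, -4341614744565012096],
    .c 0,
    .c 0,
    .c 0,
    .c 0⟩

/-- free value column 169 -/
def vf169 : VFz := ⟨⟨10, 1, 1, 0, 0⟩, [-38104028666218045440, 885045609374632812288, -4662580627202874614784, 11531045672855232136704, -16010898906408990450048, 13133894546486947379328, -6219000309043474033536, 1501598760224658076800, -112918510934101926144, -8082206685811335168],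
    .c 0,
    .c 0,
    .c 0,
    .c 0⟩

/-- free value column 170 -/
def vf170 : VFz := ⟨⟨10, 1, 1, 0, 1⟩, [461052618879837059712, -3646689277539412750464, 12421425509804940894720, -23776042512796096513536, 27904193350881097880448, -20457252628458860882304, 9044217939238700819328, -2130964078306804191360, 167635256866221336192, 12423821430376347264],
    .c 0,
    .c 0,
    .c 0,
    .c 0⟩

/-- free value column 171 -/
def vf171 : VFz := ⟨⟨10, 1, 1, 1, 0⟩, [-562752057511406468160, 6061557387203823960000, -22677217826447029757184, 43235887345532261347968, -48185689284691308028224, 33352440370804661625792, -14671358939975379707520, 3976926976272174305472, -523582060472609104512, -6211910715188173632],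
    .mul (.c (-1)) (.mul (.mul (.add (.mul (.sub (.c (-12)) (.mul (.c 2) (.T))) (.P)) (.mul (.mul (.mul (.c 20) (.a)) (.add (.c 13) (.T))) (.s))) (.w)) (.c (-2))),
    .c 0,
    .mul (.c (-1)) (.mul (.mul (.mul (.mul (.mul (.c 2) (.a)) (.add (.c 13) (.T))) (.w)) (.P)) (.c (-2))),
    .c 0⟩

/-- free value column 172 -/
def vf172 : VFz := ⟨⟨10, 1, 1, 1, 1⟩, [332225748071487938304, -4238212748434117584768, 16466505071544559309824, -31347866089134213091200, 34233592609250759088000, -23123814056575231184640, 10149249970356029297856, -2911444937118772209792, 439764432039498436416],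
    .mul (.c (-1)) (.mul (.mul (.add (.mul (.sub (.c (-12)) (.mul (.c 2) (.T))) (.P)) (.mul (.mul (.mul (.c 20) (.a)) (.add (.c 13) (.T))) (.s))) (.w)) (.mul (.c (-2)) (.d))),
    .c 0,
    .mul (.c (-1)) (.mul (.mul (.mul (.mul (.mul (.c 2) (.a)) (.add (.c 13) (.T))) (.w)) (.P)) (.mul (.c (-2)) (.d))),
    .c 0⟩

/-- free value column 173 -/
def vf173 : VFz := ⟨⟨10, 1, 2, 0, 0⟩, [-562752057511406468160, 6061557387203823960000, -22677217826447029757184, 43235887345532261347968, -48185689284691308028224, 33352440370804661625792, -14671358939975379707520, 3976926976272174305472, -523582060472609104512, -6211910715188173632],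
    .mul (.c (-1)) (.mul (.mul (.add (.mul (.sub (.c (-12)) (.mul (.c 2) (.T))) (.P)) (.mul (.mul (.mul (.c 20) (.a)) (.add (.c 13) (.T))) (.s))) (.w)) (.c 2)),
    .c 0,
    .mul (.c (-1)) (.mul (.mul (.mul (.mul (.mul (.c 2) (.a)) (.add (.c 13) (.T))) (.w)) (.P)) (.c 2)),
    .c 0⟩

/-- free value column 174 -/
def vf174 : VFz := ⟨⟨10, 1, 2, 0, 1⟩, [332225748071487938304, -4238212748434117584768, 16466505071544559309824, -31347866089134213091200, 34233592609250759088000, -23123814056575231184640, 10149249970356029297856, -2911444937118772209792, 439764432039498436416],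
    .mul (.c (-1)) (.mul (.mul (.add (.mul (.sub (.c (-12)) (.mul (.c 2) (.T))) (.P)) (.mul (.mul (.mul (.c 20) (.a)) (.add (.c 13) (.T))) (.s))) (.w)) (.mul (.c 2) (.d))),
    .c 0,
    .mul (.c (-1)) (.mul (.mul (.mul (.mul (.mul (.c 2) (.a)) (.add (.c 13) (.T))) (.w)) (.P)) (.mul (.c 2) (.d))),
    .c 0⟩

/-- free value column 175 -/
def vf175 : VFz := ⟨⟨10, 1, 2, 1, 0⟩, [-498338622107231907456, 6357319122651176377152, -24699757607316838964736, 47021799133701319636800, -51350388913876138632000, 34685721084862846776960, -15223874955534043946784, 4367167405678158314688, -659646648059247654624],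
    .mul (.c (-1)) (.mul (.mul (.add (.mul (.sub (.c (-12)) (.mul (.c 2) (.T))) (.P)) (.mul (.mul (.mul (.c 20) (.a)) (.add (.c 13) (.T))) (.s))) (.w)) (.mul (.c (-2)) (.t))),
    .c 0,
    .mul (.c (-1)) (.mul (.mul (.mul (.mul (.mul (.c 2) (.a)) (.add (.c 13) (.T))) (.w)) (.P)) (.mul (.c (-2)) (.t))),
    .c 0⟩

/-- free value column 176 -/
def vf176 : VFz := ⟨⟨10, 1, 3, 0, 0⟩, [-166112874035743969152, 2119106374217058792384, -8233252535772279654912, 15673933044567106545600, -17116796304625379544000, 11561907028287615592320, -5074624985178014648928, 1455722468559386104896, -219882216019749218208],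
    .mul (.c (-1)) (.mul (.mul (.add (.mul (.sub (.c (-12)) (.mul (.c 2) (.T))) (.P)) (.mul (.mul (.mul (.c 20) (.a)) (.add (.c 13) (.T))) (.s))) (.w)) (.mul (.c 6) (.t))),
    .c 0,
    .mul (.c (-1)) (.mul (.mul (.mul (.mul (.mul (.c 2) (.a)) (.add (.c 13) (.T))) (.w)) (.P)) (.mul (.c 6) (.t))),
    .c 0⟩

/-- free value column 177 -/
def vf177 : VFz := ⟨⟨10, 2, 0, 0, 0⟩, [-211474295106809507136, 1380821834082389969088, -3879422441301033139968, 6122498419970432188416, -5946647222236053715200, 3661679040985956751488, -1412608815097613392896, 314682659041073057280, -27358372966059705024, -2170807372282506048],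
    .c 0,
    .c 0,
    .c 0,
    .c 0⟩

/-- free value column 178 -/
def vf178 : VFz := ⟨⟨10, 2, 1, 0, 0⟩, [230526309439918529856, -1823344638769706375232, 6210712754902470447360, -11888021256398048256768, 13952096675440548940224, -10228626314229430441152, 4522108969619350409664, -1065482039153402095680, 83817628433110668096, 6211910715188173632],
    .c 0,
    .c 0,
    .c 0,
    .c 0⟩

/-- free value column 179 -/
def vf179 : VFz := ⟨⟨10, 2, 1, 1, 0⟩, [166112874035743969152, -2119106374217058792384, 8233252535772279654912, -15673933044567106545600, 17116796304625379544000, -11561907028287615592320, 5074624985178014648928, -1455722468559386104896, 219882216019749218208],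
    .mul (.c (-1)) (.mul (.mul (.add (.mul (.sub (.c (-12)) (.mul (.c 2) (.T))) (.P)) (.mul (.mul (.mul (.c 20) (.a)) (.add (.c 13) (.T))) (.s))) (.pow (.w) 2)) (.c (-2))),
    .c 0,
    .mul (.c (-1)) (.mul (.mul (.mul (.mul (.mul (.c 2) (.a)) (.add (.c 13) (.T))) (.pow (.w) 2)) (.P)) (.c (-2))),
    .c 0⟩

/-- free value column 180 -/
def vf180 : VFz := ⟨⟨10, 2, 2, 0, 0⟩, [166112874035743969152, -2119106374217058792384, 8233252535772279654912, -15673933044567106545600, 17116796304625379544000, -11561907028287615592320, 5074624985178014648928, -1455722468559386104896, 219882216019749218208],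
    .mul (.c (-1)) (.mul (.mul (.add (.mul (.sub (.c (-12)) (.mul (.c 2) (.T))) (.P)) (.mul (.mul (.mul (.c 20) (.a)) (.add (.c 13) (.T))) (.s))) (.pow (.w) 2)) (.c 2)),
    .c 0,
    .mul (.c (-1)) (.mul (.mul (.mul (.mul (.mul (.c 2) (.a)) (.add (.c 13) (.T))) (.pow (.w) 2)) (.P)) (.c 2)),
    .c 0⟩

/-- free row column 0 -/
def rf0 : RFz := ⟨⟨0, 7, 0, [(0, 1)]⟩, [-1164746846820648824460, 5257749287746209988188, -7546974942288428743824, 581448635275727825424, 8762133116983513190196, -8798122870330147261908, 3449166869306157179544, -663254618950408149756, 122614314623377842720],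
    .mul (.pow (.P) 3) (.mul (.c (-588)) (.T)),
    .c 0⟩

/-- free row column 1 -/
def rf1 : RFz := ⟨⟨0, 7, 1, [(0, 1)]⟩, [313038690980928625440, -626497377227733306204, 1307693159094900663540, -1135863417882204008088, -798962143400834522928, 2979646474719868307172, -2779453321123884501096, 965711535884128402824, -46367964020105091000],
    .mul (.pow (.P) 3) (.mul (.mul (.c 588) (.T)) (.t)),
    .c 0⟩

/-- free row column 2 -/
def rf2 : RFz := ⟨⟨0, 8, 0, [(0, 1)]⟩, [1824690141860578105932, -8180311792309253503452, 12590060028831039365520, -4775863738056201663600, -7724200072457292446568, 11152904990566182645984, -7569896412501645038544, 3635520232299487092288, -1006999336256350497060, 54095958023455939500],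
    .mul (.pow (.P) 2) (.mul (.c (-672)) (.T)),
    .c 0⟩

/-- free row column 3 -/
def rf3 : RFz := ⟨⟨0, 8, 1, [(0, 1)]⟩, [0, 2184200030882860492320, -10071387758873426770512, 15031620319095428184864, -2508494025658820570280, -15219190457102448459552, 15652282794274434340032, -5700831080905815577632, 700290291305154022200, -68490113017365661440],
    .mul (.pow (.P) 2) (.mul (.mul (.c 672) (.T)) (.t)),
    .c 0⟩

/-- free row column 4 -/
def rf4 : RFz := ⟨⟨0, 8, 2, [(0, 1)]⟩, [0, 0, -300925575965147811245568, 1273199295180564890768448, -1898157605914261496941500, 866757833701261405596420, 565444439738553494672280, -715361410895695342358580, 224884997107570383770004, -15850115700872590273500],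
    .mul (.pow (.P) 2) (.add (.add (.add (.add (.add (.add (.mul (.mul (.c 4) (.P)) (.v)) (.mul (.mul (.c 4) (.P)) (.t))) (.mul (.mul (.c (-26)) (.P)) (.s))) (.mul (.mul (.c (-672)) (.T)) (.pow (.u) 2))) (.mul (.mul (.c 1344) (.T)) (.pow (.t) 2))) (.mul (.mul (.c 16) (.T)) (.w))) (.mul (.mul (.mul (.c 16) (.T)) (.w)) (.s))),
    .c 0⟩

/-- free row column 5 -/
def rf5 : RFz := ⟨⟨0, 8, 3, [(0, 1)]⟩, [0, 0, 8668763750241100396800, -96246956587669408383408, 301896192208303635664176, -402966702827653285679904, 231369262642418577977664, -28028994335002238825520, -18716427357404150424960, 4027218645421100892672],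
    .mul (.pow (.P) 2) (.add (.add (.add (.add (.add (.add (.mul (.mul (.mul (.c 6) (.P)) (.t)) (.v)) (.mul (.mul (.c 6) (.P)) (.pow (.t) 2))) (.mul (.mul (.mul (.c (-90)) (.P)) (.s)) (.t))) (.mul (.mul (.mul (.c (-672)) (.T)) (.t)) (.pow (.u) 2))) (.mul (.mul (.c 1344) (.T)) (.pow (.t) 3))) (.mul (.mul (.mul (.c 48) (.T)) (.w)) (.t))) (.mul (.mul (.mul (.mul (.c 48) (.T)) (.w)) (.s)) (.t))),
    .c 0⟩

/-- free row column 6 -/
def rf6 : RFz := ⟨⟨0, 9, 0, [(0, 1)]⟩, [-659943295039929281472, 2922562504563043515264, -5043085086542610621696, 4235694930162574316256, -1127618835058320329088, -2535437337193979303904, 4988292996128718092544, -4235694930162574316256, 1787562130098249610560, -387125167369064211360, 54792090413892529152],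
    .mul (.P) (.mul (.c (-756)) (.T)),
    .c 0⟩

/-- free row column 7 -/
def rf7 : RFz := ⟨⟨0, 9, 1, [(0, 1)]⟩, [0, -2639773180159717125888, 11690250018252174061056, -17532567166010725360896, 5252529702398123203968, 13022091825777444044544, -15394279051174040419584, 6931080158737428325632, -1548500669476256845440, 219168361655570116608],
    .mul (.P) (.mul (.mul (.c 756) (.T)) (.t)),
    .c 0⟩

/-- free row column 8 -/
def rf8 : RFz := ⟨⟨0, 9, 2, [(0, 1)]⟩, [0, 0, 51467010440054542849152, -194435679879075642710976, 297742370970938589591168, -256761645358092037249632, 119445825902413150637952, 55299080835437112780288, -137996323331542612460160, 78992175113753921379360, -13752814693887024817152],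
    .mul (.P) (.add (.add (.add (.add (.add (.add (.mul (.mul (.c 4) (.P)) (.v)) (.mul (.mul (.c 4) (.P)) (.t))) (.mul (.mul (.c (-26)) (.P)) (.s))) (.mul (.mul (.c (-756)) (.T)) (.pow (.u) 2))) (.mul (.mul (.c 1512) (.T)) (.pow (.t) 2))) (.mul (.mul (.c 18) (.T)) (.w))) (.mul (.mul (.mul (.c 18) (.T)) (.w)) (.s))),
    .c 0⟩

/-- free row column 9 -/
def rf9 : RFz := ⟨⟨0, 9, 3, [(0, 1)]⟩, [0, 0, 0, 55435236783354059643648, -245495250383295655282176, 423619147269579292222464, -355798374133656242565504, 150155218928252967287040, -32518514059001393754240, 4602535594766972448768],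
    .mul (.P) (.add (.add (.add (.add (.add (.add (.mul (.mul (.mul (.c 6) (.P)) (.t)) (.v)) (.mul (.mul (.c 6) (.P)) (.pow (.t) 2))) (.mul (.mul (.mul (.c (-90)) (.P)) (.s)) (.t))) (.mul (.mul (.mul (.c (-756)) (.T)) (.t)) (.pow (.u) 2))) (.mul (.mul (.c 1512) (.T)) (.pow (.t) 3))) (.mul (.mul (.mul (.c 54) (.T)) (.w)) (.t))) (.mul (.mul (.mul (.mul (.c 54) (.T)) (.w)) (.s)) (.t))),
    .c 0⟩

/-- free row column 10 -/
def rf10 : RFz := ⟨⟨0, 9, 4, [(0, 1)]⟩, [0, 0, 0, 388360616010801297776640, -4336183834677298657557504, 13766596493007289885035264, -18525969312787665372833280, 10528954557838978805631360, -962688556038611334965760, -1084472415806394815141760, 225524244143581649989632],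
    .mul (.P) (.add (.add (.add (.add (.add (.add (.add (.add (.add (.add (.mul (.mul (.mul (.c 8) (.P)) (.pow (.u) 2)) (.v)) (.mul (.mul (.mul (.c 8) (.P)) (.t)) (.pow (.u) 2))) (.mul (.mul (.mul (.c (-26)) (.P)) (.s)) (.pow (.u) 2))) (.mul (.mul (.mul (.c (-204)) (.P)) (.s)) (.pow (.t) 2))) (.mul (.mul (.c (-756)) (.T)) (.pow (.u) 4))) (.mul (.mul (.mul (.c 756) (.T)) (.pow (.t) 2)) (.pow (.u) 2))) (.mul (.mul (.c 756) (.T)) (.pow (.t) 4))) (.mul (.mul (.mul (.c 18) (.T)) (.w)) (.pow (.u) 2))) (.mul (.mul (.mul (.c 108) (.T)) (.w)) (.pow (.t) 2))) (.mul (.mul (.mul (.mul (.c 18) (.T)) (.w)) (.s)) (.pow (.u) 2))) (.mul (.mul (.mul (.mul (.c 108) (.T)) (.w)) (.s)) (.pow (.t) 2))),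
    .c 0⟩

/-- free row column 11 -/
def rf11 : RFz := ⟨⟨0, 10, 2, [(0, 1)]⟩, [0, 0, 249458565525093268396416, -1104728626724830448769792, 1656827597188013546604672, -496364056876622642774976, -1230587677535968462209408, 1454759370335946819650688, -654987075000686976772224, 146333313265506271894080, -20711410176451376019456],
    .add (.add (.add (.add (.add (.add (.mul (.mul (.c 4) (.P)) (.v)) (.mul (.mul (.c 4) (.P)) (.t))) (.mul (.mul (.c (-26)) (.P)) (.s))) (.mul (.mul (.c (-840)) (.T)) (.pow (.u) 2))) (.mul (.mul (.c 1680) (.T)) (.pow (.t) 2))) (.mul (.mul (.c 20) (.T)) (.w))) (.mul (.mul (.mul (.c 20) (.T)) (.w)) (.s)),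
    .c 0⟩

/-- free row column 12 -/
def rf12 : RFz := ⟨⟨0, 10, 4, [(0, 1)]⟩, [0, 0, 0, 0, 3492419917351305757549824, -15466200774147626282777088, 26688006277983495410015232, -22415297570420343281626752, 9459778792479936939083520, -2048666385717087806517120, 289959742470319264272384],
    .add (.add (.add (.add (.add (.add (.add (.add (.add (.add (.mul (.mul (.mul (.c 8) (.P)) (.pow (.u) 2)) (.v)) (.mul (.mul (.mul (.c 8) (.P)) (.t)) (.pow (.u) 2))) (.mul (.mul (.mul (.c (-26)) (.P)) (.s)) (.pow (.u) 2))) (.mul (.mul (.mul (.c (-204)) (.P)) (.s)) (.pow (.t) 2))) (.mul (.mul (.c (-840)) (.T)) (.pow (.u) 4))) (.mul (.mul (.mul (.c 840) (.T)) (.pow (.t) 2)) (.pow (.u) 2))) (.mul (.mul (.c 840) (.T)) (.pow (.t) 4))) (.mul (.mul (.mul (.c 20) (.T)) (.w)) (.pow (.u) 2))) (.mul (.mul (.mul (.c 120) (.T)) (.w)) (.pow (.t) 2))) (.mul (.mul (.mul (.mul (.c 20) (.T)) (.w)) (.s)) (.pow (.u) 2))) (.mul (.mul (.mul (.mul (.c 120) (.T)) (.w)) (.s)) (.pow (.t) 2)),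
    .c 0⟩

/-- free row column 13 -/
def rf13 : RFz := ⟨⟨0, 7, 0, [(1, 1)]⟩, [0, -504803551780719542988, 2204467329806514959004, -1888475033299793022084, -4546016514868273657212, 10565587943231956837020, -8080976856514131680292, 2397025121275444480548, -146831886063666121500],
    .mul (.pow (.P) 3) (.add (.mul (.c (-84)) (.P)) (.mul (.mul (.c (-588)) (.T)) (.s))),
    .c 0⟩

/-- free row column 14 -/
def rf14 : RFz := ⟨⟨0, 7, 1, [(1, 1)]⟩, [0, -1035435670167686991840, 10669840014968703337860, -32721724695011844600108, 43159355312673941603808, -26309115753413244528504, 6253821678047499197460, -62739882912799153152, -50448712482028267680],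
    .mul (.pow (.P) 3) (.add (.mul (.mul (.c 84) (.P)) (.t)) (.mul (.mul (.mul (.c 588) (.T)) (.s)) (.t))),
    .c 0⟩

/-- free row column 15 -/
def rf15 : RFz := ⟨⟨0, 8, 2, [(1, 1)]⟩, [0, 0, 77915674183714652376000, -917203765921884987957684, 2924658712143180976459860, -4058089630201913788379352, 2670888036633536355273456, -728951297395191328625076, 13229689645008980095680, 17569988611271682304992],
    .mul (.pow (.P) 2) (.add (.add (.add (.add (.add (.add (.add (.add (.add (.add (.mul (.mul (.c (-84)) (.P)) (.pow (.u) 2)) (.mul (.mul (.c 168) (.P)) (.pow (.t) 2))) (.mul (.mul (.mul (.c 4) (.P)) (.s)) (.v))) (.mul (.mul (.mul (.c 4) (.P)) (.s)) (.t))) (.mul (.mul (.c (-26)) (.P)) (.pow (.s) 2))) (.mul (.mul (.c 2) (.P)) (.w))) (.mul (.mul (.mul (.c 2) (.P)) (.w)) (.s))) (.mul (.mul (.mul (.c (-672)) (.T)) (.s)) (.pow (.u) 2))) (.mul (.mul (.mul (.c 1344) (.T)) (.s)) (.pow (.t) 2))) (.mul (.mul (.mul (.c 16) (.T)) (.w)) (.s))) (.mul (.mul (.mul (.c 16) (.T)) (.w))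 (.pow (.s) 2))),
    .c 0⟩

/-- free row column 16 -/
def rf16 : RFz := ⟨⟨0, 8, 3, [(1, 1)]⟩, [0, 0, 0, -13870022000385760634880, 150520819176026887416192, -448512895808244816022656, 577166577937274089320192, -346817735733780223016832, 86705018103073434180480, -5193211970251770192000],
    .mul (.pow (.P) 2) (.add (.add (.add (.add (.add (.add (.add (.add (.add (.add (.mul (.mul (.mul (.c (-84)) (.P)) (.t)) (.pow (.u) 2)) (.mul (.mul (.c 168) (.P)) (.pow (.t) 3))) (.mul (.mul (.mul (.mul (.c 6) (.P)) (.s)) (.t)) (.v))) (.mul (.mul (.mul (.c 6) (.P)) (.s)) (.pow (.t) 2))) (.mul (.mul (.mul (.c (-90)) (.P)) (.pow (.s) 2)) (.t))) (.mul (.mul (.mul (.c 6) (.P)) (.w)) (.t))) (.mul (.mul (.mul (.mul (.c 6) (.P)) (.w)) (.s)) (.t))) (.mul (.mul (.mul (.mul (.c (-672)) (.T)) (.s)) (.t)) (.pow (.u) 2))) (.mul (.mul (.mul (.c 1344) (.T)) (.s)) (.pow (.t) 3))) (.mul (.mul (.mul (.mul (.c 48) (.T)) (.w)) (.s)) (.t))) (.mul (.mul (.mul (.mul (.c 48) (.T)) (.w)) (.pow (.s) 2))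 (.t))),
    .c 0⟩

/-- free row column 17 -/
def rf17 : RFz := ⟨⟨0, 9, 4, [(1, 1)]⟩, [0, 0, 0, 0, -606813462516877027776000, 6798130401461143429391616, -20615251892547554861883264, 26985236035762244622066048, -16542189310091056390501632, 4235286075257234038519296, -254467386542336739408000],
    .mul (.P) (.add (.add (.add (.add (.add (.add (.add (.add (.add (.add (.add (.add (.add (.add (.add (.add (.add (.mul (.mul (.c (-84)) (.P)) (.pow (.u) 4)) (.mul (.mul (.mul (.c 84) (.P)) (.pow (.t) 2)) (.pow (.u) 2))) (.mul (.mul (.c 84) (.P)) (.pow (.t) 4))) (.mul (.mul (.mul (.mul (.c 8) (.P)) (.s)) (.pow (.u) 2)) (.v))) (.mul (.mul (.mul (.mul (.c 8) (.P)) (.s)) (.t)) (.pow (.u) 2))) (.mul (.mul (.mul (.c (-26)) (.P)) (.pow (.s) 2)) (.pow (.u) 2))) (.mul (.mul (.mul (.c (-204)) (.P)) (.pow (.s) 2)) (.pow (.t) 2))) (.mul (.mul (.mul (.c 2) (.P)) (.w)) (.pow (.u) 2))) (.mul (.mul (.mul (.c 12) (.P)) (.w)) (.pow (.t) 2))) (.mul (.mul (.mul (.mul (.c 2) (.P)) (.w)) (.s))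 (.pow (.u) 2))) (.mul (.mul (.mul (.mul (.c 12) (.P)) (.w)) (.s)) (.pow (.t) 2))) (.mul (.mul (.mul (.c (-756)) (.T)) (.s)) (.pow (.u) 4))) (.mul (.mul (.mul (.mul (.c 756) (.T)) (.s)) (.pow (.t) 2)) (.pow (.u) 2))) (.mul (.mul (.mul (.c 756) (.T)) (.s)) (.pow (.t) 4))) (.mul (.mul (.mul (.mul (.c 18) (.T)) (.w)) (.s)) (.pow (.u) 2))) (.mul (.mul (.mul (.mul (.c 108) (.T)) (.w)) (.s)) (.pow (.t) 2))) (.mul (.mul (.mul (.mul (.c 18) (.T)) (.w)) (.pow (.s) 2)) (.pow (.u) 2))) (.mul (.mul (.mul (.mul (.c 108) (.T)) (.w)) (.pow (.s) 2)) (.pow (.t) 2))),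
    .c 0⟩

/-- free row column 18 -/
def rf18 : RFz := ⟨⟨0, 7, 0, [(2, 1)]⟩, [0, 0, 155139743259209738484, -456656268003225528420, -64678506215491077000, 1454660817964700009664, -1639149536232316406844, 526559006154069369936, 24139562098369068624],
    .mul (.mul (.s) (.pow (.P) 3)) (.add (.mul (.c (-168)) (.P)) (.mul (.mul (.c (-588)) (.T)) (.s))),
    .c 0⟩

/-- free row column 19 -/
def rf19 : RFz := ⟨⟨0, 7, 1, [(2, 1)]⟩, [0, 0, 856556418178584920160, -7757139210309721349208, 20522398894651874486448, -23108875500968752904136, 11523702719295348479352, -2160245669327935515144, 123647904053613576000],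
    .mul (.mul (.s) (.pow (.P) 3)) (.add (.mul (.mul (.c 168) (.P)) (.t)) (.mul (.mul (.mul (.c 588) (.T)) (.s)) (.t))),
    .c 0⟩

/-- free row column 20 -/
def rf20 : RFz := ⟨⟨0, 8, 2, [(2, 1)]⟩, [0, 0, 0, -96925034693171922531840, 991041087572483004701280, -2850590059725660085046304, 3537809800297902539137728, -2032477261357296091744224, 479633914625685652725984, -28500841884357929268000],
    .mul (.mul (.s) (.pow (.P) 2)) (.add (.add (.add (.add (.add (.add (.add (.add (.add (.add (.mul (.mul (.c (-168)) (.P)) (.pow (.u) 2)) (.mul (.mul (.c 336) (.P)) (.pow (.t) 2))) (.mul (.mul (.mul (.c 4) (.P)) (.s)) (.v))) (.mul (.mul (.mul (.c 4) (.P)) (.s)) (.t))) (.mul (.mul (.c (-26)) (.P)) (.pow (.s) 2))) (.mul (.mul (.c 4) (.P)) (.w))) (.mul (.mul (.mul (.c 4) (.P)) (.w)) (.s))) (.mul (.mul (.mul (.c (-672)) (.T)) (.s)) (.pow (.u) 2))) (.mul (.mul (.mul (.c 1344) (.T)) (.s)) (.pow (.t) 2))) (.mul (.mul (.mul (.c 16) (.T)) (.w)) (.s))) (.mul (.mul (.mul (.c 16) (.T))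 (.w)) (.pow (.s) 2))),
    .c 0⟩

/-- free row column 21 -/
def rf21 : RFz := ⟨⟨0, 8, 3, [(2, 1)]⟩, [0, 0, 0, 0, 5201258250144660238080, -41242124154583861000128, 97277143004031508801920, -92566163083156125330240, 32277124347441038380224, -947129413811731166016],
    .mul (.mul (.s) (.pow (.P) 2)) (.add (.add (.add (.add (.add (.add (.add (.add (.add (.add (.mul (.mul (.mul (.c (-168)) (.P)) (.t)) (.pow (.u) 2)) (.mul (.mul (.c 336) (.P)) (.pow (.t) 3))) (.mul (.mul (.mul (.mul (.c 6) (.P)) (.s)) (.t)) (.v))) (.mul (.mul (.mul (.c 6) (.P)) (.s)) (.pow (.t) 2))) (.mul (.mul (.mul (.c (-90)) (.P)) (.pow (.s) 2)) (.t))) (.mul (.mul (.mul (.c 12) (.P)) (.w)) (.t))) (.mul (.mul (.mul (.mul (.c 12) (.P)) (.w)) (.s)) (.t))) (.mul (.mul (.mul (.mul (.c (-672)) (.T)) (.s)) (.t)) (.pow (.u) 2))) (.mul (.mul (.mul (.c 1344) (.T)) (.s)) (.pow (.t) 3))) (.mul (.mul (.mul (.mul (.c 48) (.T)) (.w)) (.s)) (.t))) (.mul (.mul (.mul (.mul (.c 48) (.T)) (.w)) (.pow (.s) 2)) (.t))),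
    .c 0⟩

/-- free row column 22 -/
def rf22 : RFz := ⟨⟨0, 9, 4, [(2, 1)]⟩, [0, 0, 0, 0, 0, 218452846506075729999360, -1732169214492522162005376, 4085640006169323369680640, -3887778849492557263870080, 1355639222592523611969408, -39779435380092708972672],
    .mul (.mul (.s) (.P)) (.add (.add (.add (.add (.add (.add (.add (.add (.add (.add (.add (.add (.add (.add (.add (.add (.add (.mul (.mul (.c (-168)) (.P)) (.pow (.u) 4)) (.mul (.mul (.mul (.c 168) (.P)) (.pow (.t) 2)) (.pow (.u) 2))) (.mul (.mul (.c 168) (.P)) (.pow (.t) 4))) (.mul (.mul (.mul (.mul (.c 8) (.P)) (.s)) (.pow (.u) 2)) (.v))) (.mul (.mul (.mul (.mul (.c 8) (.P)) (.s)) (.t)) (.pow (.u) 2))) (.mul (.mul (.mul (.c (-26)) (.P)) (.pow (.s) 2)) (.pow (.u) 2))) (.mul (.mul (.mul (.c (-204)) (.P)) (.pow (.s) 2)) (.pow (.t) 2))) (.mul (.mul (.mul (.c 4) (.P)) (.w)) (.pow (.u) 2))) (.mul (.mul (.mul (.c 24) (.P)) (.w)) (.pow (.t) 2))) (.mul (.mul (.mul (.mul (.c 4) (.P)) (.w)) (.s)) (.pow (.u) 2))) (.mul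 (.mul (.mul (.mul (.c 24) (.P)) (.w)) (.s)) (.pow (.t) 2))) (.mul (.mul (.mul (.c (-756)) (.T)) (.s)) (.pow (.u) 4))) (.mul (.mul (.mul (.mul (.c 756) (.T)) (.s)) (.pow (.t) 2)) (.pow (.u) 2))) (.mul (.mul (.mul (.c 756) (.T)) (.s)) (.pow (.t) 4))) (.mul (.mul (.mul (.mul (.c 18) (.T)) (.w)) (.s)) (.pow (.u) 2))) (.mul (.mul (.mul (.mul (.c 108) (.T)) (.w)) (.s)) (.pow (.t) 2))) (.mul (.mul (.mul (.mul (.c 18) (.T)) (.w)) (.pow (.s) 2)) (.pow (.u) 2))) (.mul (.mul (.mul (.mul (.c 108) (.T)) (.w)) (.pow (.s) 2)) (.pow (.t) 2))),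
    .c 0⟩

/-- free row column 23 -/
def rf23 : RFz := ⟨⟨0, 7, 0, [(3, 1)]⟩, [0, 0, -103199568455251195200, 1300936845493369362096, -4181378009573967943104, 5769052557787118618928, -3744531087932609340912, 1020927246300734559696, -61823952026806788000],
    .mul (.mul (.pow (.s) 2) (.pow (.P) 3)) (.add (.mul (.c (-252)) (.P)) (.mul (.mul (.c (-588)) (.T)) (.s))),
    .c 0⟩

/-- free row column 24 -/
def rf24 : RFz := ⟨⟨0, 7, 1, [(3, 1)]⟩, [0, 0, 0, -216719093756027509920, 1718421839774327541672, -4053214291834646200080, 3856923461798171888760, -1344880181143376599176, 39463725575488798584],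
    .mul (.mul (.pow (.s) 2) (.pow (.P) 3)) (.add (.mul (.mul (.c 252) (.P)) (.t)) (.mul (.mul (.mul (.c 588) (.T)) (.s)) (.t))),
    .c 0⟩

/-- free row column 25 -/
def rf25 : RFz := ⟨⟨0, 8, 2, [(3, 1)]⟩, [0, 0, 0, 0, 31145629759794810711360, -246961767258996215274576, 582504796797950582468640, -554295000366994417156080, 193278494604319551253008, -5671501132705961625072],
    .mul (.mul (.pow (.s) 2) (.pow (.P) 2)) (.add (.add (.add (.add (.add (.add (.add (.add (.add (.add (.mul (.mul (.c (-252)) (.P)) (.pow (.u) 2)) (.mul (.mul (.c 504) (.P)) (.pow (.t) 2))) (.mul (.mul (.mul (.c 4) (.P)) (.s)) (.v))) (.mul (.mul (.mul (.c 4) (.P)) (.s)) (.t))) (.mul (.mul (.c (-26)) (.P)) (.pow (.s) 2))) (.mul (.mul (.c 6) (.P)) (.w))) (.mul (.mul (.mul (.c 6) (.P)) (.w)) (.s))) (.mul (.mul (.mul (.c (-672)) (.T)) (.s)) (.pow (.u) 2))) (.mul (.mul (.mul (.c 1344) (.T)) (.s)) (.pow (.t) 2))) (.mul (.mul (.mul (.c 16) (.T)) (.w)) (.s))) (.mul (.mul (.mul (.c 16) (.T)) (.w))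 (.pow (.s) 2))),
    .c 0⟩

/-- free row column 26 -/
def rf26 : RFz := ⟨⟨0, 7, 0, [(4, 1)]⟩, [0, 0, 0, 61919741073150717120, -490977668506950726192, 1158061226238470342880, -1101978131942334825360, 384251480326679028336, -11275350164425371024],
    .mul (.mul (.pow (.s) 3) (.pow (.P) 3)) (.add (.mul (.c (-336)) (.P)) (.mul (.mul (.c (-588)) (.T)) (.s))),
    .c 0⟩

/-- free row column 27 -/
def rf27 : RFz := ⟨⟨1, 6, 0, [(0, 1)]⟩, [73429393577994251460, -295091321191316650260, 412945192451479933128, -95856779753407125024, -303797485648975677372, 297950912018825431392, -93501584365369689600, 5887995431124456000],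
    .c 0,
    .c 0⟩

/-- free row column 28 -/
def rf28 : RFz := ⟨⟨1, 7, 0, [(0, 1)]⟩, [-76888766500814183760, 307631094319487939832, -414429229724847297480, 63818761774660341228, 358680242240989437392, -344235744075631626244, 122013552406000612968, -20797970350068795936, 4208059910223572000],
    .c 0,
    .c 0⟩

/-- free row column 29 -/
def rf29 : RFz := ⟨⟨1, 7, 1, [(0, 1)]⟩, [288958791674703346560, -10289317304184435421632, 41173956885317032629216, -58814468257067757147732, 18636963138619121035740, 34092642447167467736664, -35717807210253206734332, 11347707780433899890652, -718703442311628910500],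
    .mul (.pow (.P) 3) (.add (.add (.mul (.c (-1176)) (.P)) (.mul (.mul (.c 588) (.T)) (.v))) (.mul (.mul (.c 588) (.T)) (.t))),
    .mul (.pow (.P) 3) (.mul (.c (-2)) (.P))⟩

/-- free row column 30 -/
def rf30 : RFz := ⟨⟨1, 8, 0, [(0, 1)]⟩, [-27966498269557652532, 128595576012073662492, -175811129224858924160, -42635803525129989356, 304592431856316847880, -208113139626574034944, -59711466318096337472, 119577369138513412308, -41103338043803933716, 2575998001116949500],
    .c 0,
    .c 0⟩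

/-- free row column 31 -/
def rf31 : RFz := ⟨⟨1, 8, 1, [(0, 1)]⟩, [-288958791674703346560, 10210548660178254766560, -39897118193853310423488, 53405286610004838637128, -8127110968045659875376, -45116400380874223066848, 42776512981980631887852, -15085576663229182317480, 2707156495807535991492, -584339750294182253280],
    .mul (.pow (.P) 2) (.add (.add (.mul (.c (-1176)) (.P)) (.mul (.mul (.c 672) (.T)) (.v))) (.mul (.mul (.c 672) (.T)) (.t))),
    .mul (.pow (.P) 2) (.mul (.c (-2)) (.P))⟩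

/-- free row column 32 -/
def rf32 : RFz := ⟨⟨1, 8, 3, [(0, 1)]⟩, [0, 0, -4334381875120550198400, 65499129538866194901912, -212688753815252199722328, 278251093106658766475472, -150919762865523368799264, 18990451686281196407832, 2583124623170544241152, 2619359327108459836992],
    .mul (.pow (.P) 2) (.add (.add (.add (.add (.add (.add (.add (.add (.add (.add (.mul (.mul (.c (-6)) (.P)) (.pow (.v) 2)) (.mul (.mul (.c (-1344)) (.P)) (.pow (.u) 2))) (.mul (.mul (.mul (.c (-12)) (.P)) (.t)) (.v))) (.mul (.mul (.c (-8070)) (.P)) (.pow (.t) 2))) (.mul (.mul (.mul (.c (-12)) (.P)) (.s)) (.v))) (.mul (.mul (.mul (.c (-12)) (.P)) (.s)) (.t))) (.mul (.mul (.c 6) (.P)) (.w))) (.mul (.mul (.mul (.c 6) (.P)) (.w)) (.s))) (.mul (.mul (.mul (.c 672) (.T)) (.pow (.u) 2)) (.v))) (.mul (.mul (.mul (.c 672) (.T)) (.t)) (.pow (.u) 2))) (.mul (.mul (.mul (.c (-4032)) (.T)) (.s)) (.pow (.t) 2))),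
    .mul (.pow (.P) 2) (.mul (.mul (.c (-6)) (.P)) (.pow (.t) 2))⟩

/-- free row column 33 -/
def rf33 : RFz := ⟨⟨1, 9, 0, [(0, 1)]⟩, [31425871192377584832, -139169643074430643584, 177295166498226288512, 76639527569691081632, -363745940378430588160, 245795342304430519328, 72512043655238282368, -164830695020211709216, 79903711870022121536, -18434531779479248160, 2609147162566310912],
    .c 0,
    .c 0⟩

/-- free row column 34 -/
def rf34 : RFz := ⟨⟨1, 9, 1, [(0, 1)]⟩, [0, 6018258299365544188320, -27449181779154462329184, 38302553292781661939328, 4536550141022776609824, -57682574464749952466112, 42660146982851458080384, 6565986262071470532480, -19314747680532124845024, 6795776610531275805984, -432767664187647516000],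
    .mul (.P) (.add (.add (.mul (.c (-1176)) (.P)) (.mul (.mul (.c 756) (.T)) (.v))) (.mul (.mul (.c 756) (.T)) (.t))),
    .mul (.P) (.mul (.c (-2)) (.P))⟩

/-- free row column 35 -/
def rf35 : RFz := ⟨⟨1, 9, 3, [(0, 1)]⟩, [0, 0, 0, 38059585538322568933440, -179709169588749426540096, 267475406232078142268352, -24278197822463397933120, -312194029323315921477696, 303563976541911307849536, -98976318876410338324416, 6058747298627065224000],
    .mul (.P) (.add (.add (.add (.add (.add (.add (.add (.add (.add (.add (.mul (.mul (.c (-6)) (.P)) (.pow (.v) 2)) (.mul (.mul (.c (-1344)) (.P)) (.pow (.u) 2))) (.mul (.mul (.mul (.c (-12)) (.P)) (.t)) (.v))) (.mul (.mul (.c (-8070)) (.P)) (.pow (.t) 2))) (.mul (.mul (.mul (.c (-12)) (.P)) (.s)) (.v))) (.mul (.mul (.mul (.c (-12)) (.P)) (.s)) (.t))) (.mul (.mul (.c 6) (.P)) (.w))) (.mul (.mul (.mul (.c 6) (.P)) (.w)) (.s))) (.mul (.mul (.mul (.c 756) (.T)) (.pow (.u) 2)) (.v))) (.mul (.mul (.mul (.c 756) (.T)) (.t)) (.pow (.u)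 2))) (.mul (.mul (.mul (.c (-4536)) (.T)) (.s)) (.pow (.t) 2))),
    .mul (.P) (.mul (.mul (.c (-6)) (.P)) (.pow (.t) 2))⟩

/-- free row column 36 -/
def rf36 : RFz := ⟨⟨1, 10, 1, [(0, 1)]⟩, [0, -5939489655359363533248, 26303062541067391637376, -33508786468164768528768, -14484870710671614428448, 68747982731523381162240, -46455319695537368152992, -13704776250840035367552, 31153001358820013041824, -15101801543434180970304, 3484126506321577902240, -493128813725032762368],
    .add (.add (.mul (.c (-1176)) (.P)) (.mul (.mul (.c 840) (.T)) (.v))) (.mul (.mul (.c 840) (.T)) (.t)),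
    .mul (.c (-2)) (.P)⟩

/-- free row column 37 -/
def rf37 : RFz := ⟨⟨1, 10, 3, [(0, 1)]⟩, [0, 0, 0, -83152855175031089465472, 368242875574943482923264, -552275865729337848868224, 165454685625540880924992, 410195892511989487403136, -484919790111982273216896, 218329025000228992257408, -48777771088502090631360, 6903803392150458673152],
    .add (.add (.add (.add (.add (.add (.add (.add (.add (.add (.mul (.mul (.c (-6)) (.P)) (.pow (.v) 2)) (.mul (.mul (.c (-1344)) (.P)) (.pow (.u) 2))) (.mul (.mul (.mul (.c (-12)) (.P)) (.t)) (.v))) (.mul (.mul (.c (-8070)) (.P)) (.pow (.t) 2))) (.mul (.mul (.mul (.c (-12)) (.P)) (.s)) (.v))) (.mul (.mul (.mul (.c (-12)) (.P)) (.s)) (.t))) (.mul (.mul (.c 6) (.P)) (.w))) (.mul (.mul (.mul (.c 6) (.P)) (.w)) (.s))) (.mul (.mul (.mul (.c 840) (.T)) (.pow (.u) 2)) (.v))) (.mul (.mul (.mul (.c 840) (.T)) (.t)) (.pow (.u) 2))) (.mul (.mul (.mul (.c (-5040)) (.T)) (.s)) (.pow (.t) 2)),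
    .mul (.mul (.c (-6)) (.P)) (.pow (.t) 2)⟩

/-- free row column 38 -/
def rf38 : RFz := ⟨⟨1, 6, 0, [(1, 1)]⟩, [-7453302166212586320, 64307733427191732894, -221252237845646906106, 350062177005827979888, -293310848475686001012, 128381786059215878982, -20680049693183589072, -2350662778065866784],
    .c 0,
    .c 0⟩

/-- free row column 39 -/
def rf39 : RFz := ⟨⟨1, 7, 1, [(1, 1)]⟩, [0, 288958791674703346560, -4428596292831252543456, 17076529151810623954368, -29750105351088760087632, 27052815213289819865184, -12466912639216351797936, 1955479351133449277136, 272043947937930146160],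
    .mul (.pow (.P) 3) (.add (.add (.add (.add (.mul (.mul (.c 84) (.P)) (.v)) (.mul (.mul (.c 84) (.P)) (.t))) (.mul (.mul (.c (-1176)) (.P)) (.s))) (.mul (.mul (.mul (.c 588) (.T)) (.s)) (.v))) (.mul (.mul (.mul (.c 588) (.T)) (.s)) (.t))),
    .mul (.pow (.P) 3) (.mul (.mul (.c (-2)) (.P)) (.s))⟩

/-- free row column 40 -/
def rf40 : RFz := ⟨⟨1, 8, 3, [(1, 1)]⟩, [0, 0, 0, -2311670333397626772480, 45357713911239443610624, -169305739866787865612544, 261356167847307892439808, -188175658025932097504256, 56540506183633314565632, -3462141313501180128000],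
    .mul (.pow (.P) 2) (.add (.add (.add (.add (.add (.add (.add (.add (.add (.add (.add (.add (.mul (.mul (.mul (.c 84) (.P)) (.pow (.u) 2)) (.v)) (.mul (.mul (.mul (.c 84) (.P)) (.t)) (.pow (.u) 2))) (.mul (.mul (.mul (.c (-6)) (.P)) (.s)) (.pow (.v) 2))) (.mul (.mul (.mul (.c (-1344)) (.P)) (.s)) (.pow (.u) 2))) (.mul (.mul (.mul (.mul (.c (-12)) (.P)) (.s)) (.t)) (.v))) (.mul (.mul (.mul (.c (-8574)) (.P)) (.s)) (.pow (.t) 2))) (.mul (.mul (.mul (.c (-12)) (.P)) (.pow (.s) 2)) (.v))) (.mul (.mul (.mul (.c (-12)) (.P)) (.pow (.s) 2)) (.t))) (.mul (.mul (.mul (.c 6) (.P)) (.w)) (.s))) (.mul (.mul (.mul (.c 6) (.P)) (.w)) (.pow (.s) 2))) (.mul (.mul (.mul (.mul (.c 672) (.T)) (.s)) (.pow (.u) 2)) (.v))) (.mul (.mul (.mul (.mul (.c 672) (.T)) (.s)) (.t)) (.pow (.u) 2))) (.mul (.mul (.mul (.c (-4032)) (.T)) (.pow (.s) 2)) (.pow (.t) 2))),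
    .mul (.pow (.P) 2) (.mul (.mul (.mul (.c (-6)) (.P)) (.s)) (.pow (.t) 2))⟩

/-- free row column 41 -/
def rf41 : RFz := ⟨⟨1, 6, 0, [(2, 1)]⟩, [0, 17199928075875199200, -182348469631148359032, 536090908797338654448, -680621449782384490536, 402366232222948392984, -98573469905358692712, 5887995431124456000],
    .c 0,
    .c 0⟩

/-- free row column 42 -/
def rf42 : RFz := ⟨⟨1, 7, 1, [(2, 1)]⟩, [0, 0, -1362234303609315776640, 15145275288988979342208, -45738830669835003888096, 59635319943680411347872, -36390540153680237266560, 9267272667857588634432, -556415568241261092000],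
    .mul (.mul (.s) (.pow (.P) 3)) (.add (.add (.add (.add (.mul (.mul (.c 168) (.P)) (.v)) (.mul (.mul (.c 168) (.P)) (.t))) (.mul (.mul (.c (-1176)) (.P)) (.s))) (.mul (.mul (.mul (.c 588) (.T)) (.s)) (.v))) (.mul (.mul (.mul (.c 588) (.T)) (.s)) (.t))),
    .mul (.mul (.s) (.pow (.P) 3)) (.mul (.mul (.c (-2)) (.P)) (.s))⟩

/-- free row column 43 -/
def rf43 : RFz := ⟨⟨1, 8, 3, [(2, 1)]⟩, [0, 0, 0, 0, 2600629125072330119040, -20621062077291930500064, 48638571502015754400960, -46283081541578062665120, 16138562173720519190112, -473564706905865583008],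
    .mul (.mul (.s) (.pow (.P) 2)) (.add (.add (.add (.add (.add (.add (.add (.add (.add (.add (.add (.add (.mul (.mul (.mul (.c 168) (.P)) (.pow (.u) 2)) (.v)) (.mul (.mul (.mul (.c 168) (.P)) (.t)) (.pow (.u) 2))) (.mul (.mul (.mul (.c (-6)) (.P)) (.s)) (.pow (.v) 2))) (.mul (.mul (.mul (.c (-1344)) (.P)) (.s)) (.pow (.u) 2))) (.mul (.mul (.mul (.mul (.c (-12)) (.P)) (.s)) (.t)) (.v))) (.mul (.mul (.mul (.c (-9078)) (.P)) (.s)) (.pow (.t) 2))) (.mul (.mul (.mul (.c (-12)) (.P)) (.pow (.s) 2)) (.v))) (.mul (.mul (.mul (.c (-12)) (.P)) (.pow (.s) 2)) (.t))) (.mul (.mul (.mul (.c 6) (.P)) (.w)) (.s))) (.mul (.mul (.mul (.c 6) (.P)) (.w)) (.pow (.s) 2))) (.mul (.mul (.mul (.mul (.c 672) (.T)) (.s)) (.pow (.u) 2)) (.v))) (.mul (.mul (.mul (.mul (.c 672) (.T)) (.s)) (.t)) (.pow (.u) 2))) (.mul (.mul (.mul (.c (-4032)) (.T)) (.pow (.s) 2)) (.pow (.t) 2))),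
    .mul (.mul (.s) (.pow (.P) 2)) (.mul (.mul (.mul (.c (-6)) (.P)) (.s)) (.pow (.t) 2))⟩

/-- free row column 44 -/
def rf44 : RFz := ⟨⟨1, 6, 0, [(3, 1)]⟩, [0, 0, -8108537521484022480, 64294694685434023668, -151650874864561592520, 144306660135305750940, -50318646233255587044, 1476533950103322396],
    .c 0,
    .c 0⟩

/-- free row column 45 -/
def rf45 : RFz := ⟨⟨1, 7, 1, [(3, 1)]⟩, [0, 0, 0, 619197410731507171200, -4909776685069507261920, 11580612262384703428800, -11019781319423348253600, 3842514803266790283360, -112753501644253710240],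
    .mul (.mul (.pow (.s) 2) (.pow (.P) 3)) (.add (.add (.add (.add (.mul (.mul (.c 252) (.P)) (.v)) (.mul (.mul (.c 252) (.P)) (.t))) (.mul (.mul (.c (-1176)) (.P)) (.s))) (.mul (.mul (.mul (.c 588) (.T)) (.s)) (.v))) (.mul (.mul (.mul (.c 588) (.T)) (.s)) (.t))),
    .mul (.mul (.pow (.s) 2) (.pow (.P) 3)) (.mul (.mul (.c (-2)) (.P)) (.s))⟩

/-- free row column 46 -/
def rf46 : RFz := ⟨⟨3, 7, 0, [(0, 1)]⟩, [0, -844621279801456765608, 3925972997764871907672, -5807351480108311210896, 672297048745446583368, 6355992462040261856088, -6185421209913083159112, 2006775625423256853984, -123647904053613576000],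
    .mul (.pow (.P) 3) (.add (.mul (.c 1092) (.P)) (.mul (.mul (.c 588) (.T)) (.s))),
    .c 0⟩

/-- free row column 47 -/
def rf47 : RFz := ⟨⟨3, 7, 1, [(0, 1)]⟩, [0, -82559654764200956160],
    .mul (.pow (.P) 3) (.add (.mul (.mul (.c 1176) (.P)) (.t)) (.mul (.mul (.mul (.c 588) (.T)) (.s)) (.t))),
    .c 0⟩

/-- free row column 48 -/
def rf48 : RFz := ⟨⟨3, 8, 0, [(0, 1)]⟩, [0, 2164507869881315328552, -9784857949351659097560, 14638415570739571270296, -3388087204428647836752, -12899820032773310872872, 14080067261676671090472, -5666166854939988046104, 979223542627306354560, -123282203431258190592],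
    .mul (.pow (.P) 2) (.add (.mul (.c 1092) (.P)) (.mul (.mul (.c 672) (.T)) (.s))),
    .c 0⟩

/-- free row column 49 -/
def rf49 : RFz := ⟨⟨3, 8, 2, [(0, 1)]⟩, [0, 0, -591677525810106852480, 138065370738039148891032, -557314436801062633604184, 864322334695559248476240, -630910175207834191252128, 231825092492354949655704, -65606050190167416244224, 20213694369658144834752],
    .mul (.pow (.P) 2) (.add (.add (.add (.add (.add (.add (.add (.add (.add (.add (.add (.add (.mul (.mul (.c 1260) (.P)) (.pow (.u) 2)) (.mul (.mul (.mul (.c 30) (.P)) (.s)) (.v))) (.mul (.mul (.mul (.c 30) (.P)) (.s)) (.t))) (.mul (.mul (.c 26) (.P)) (.pow (.s) 2))) (.mul (.mul (.c (-4)) (.P)) (.w))) (.mul (.mul (.mul (.c (-4)) (.P)) (.w)) (.s))) (.mul (.mul (.mul (.c 672) (.T)) (.s)) (.pow (.u) 2))) (.mul (.mul (.mul (.c (-16)) (.T)) (.w)) (.v))) (.mul (.mul (.mul (.c (-16)) (.T)) (.w)) (.t))) (.mul (.mul (.mul (.c (-16)) (.T)) (.w)) (.s))) (.mul (.mul (.mul (.mul (.c (-16)) (.T)) (.w))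 (.s)) (.v))) (.mul (.mul (.mul (.mul (.c (-16)) (.T)) (.w)) (.s)) (.t))) (.mul (.mul (.mul (.c (-16)) (.T)) (.w)) (.pow (.s) 2))),
    .c 0⟩

/-- free row column 50 -/
def rf50 : RFz := ⟨⟨3, 8, 3, [(0, 1)]⟩, [0, 0, 0, -3467505500096440158720, 62968843188050424822288, -230320212158828366016624, 350743817223187952604768, -249670311521322631172688, 74288341817169702964560, -4544060473970298918000],
    .mul (.pow (.P) 2) (.add (.add (.add (.add (.add (.add (.add (.add (.add (.add (.add (.add (.add (.add (.mul (.mul (.mul (.c 4032) (.P)) (.t)) (.pow (.u) 2)) (.mul (.mul (.c (-2688)) (.P)) (.pow (.t) 3))) (.mul (.mul (.mul (.mul (.c 96) (.P)) (.s)) (.t)) (.v))) (.mul (.mul (.mul (.c 96) (.P)) (.s)) (.pow (.t) 2))) (.mul (.mul (.mul (.c 90) (.P)) (.pow (.s) 2)) (.t))) (.mul (.mul (.mul (.c (-6)) (.P)) (.w)) (.t))) (.mul (.mul (.mul (.mul (.c (-6)) (.P)) (.w)) (.s)) (.t))) (.mul (.mul (.mul (.mul (.c 2016) (.T)) (.s)) (.t)) (.pow (.u) 2))) (.mul (.mul (.mul (.c (-1344))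 (.T)) (.s)) (.pow (.t) 3))) (.mul (.mul (.mul (.mul (.c (-48)) (.T)) (.w)) (.t)) (.v))) (.mul (.mul (.mul (.c (-48)) (.T)) (.w)) (.pow (.t) 2))) (.mul (.mul (.mul (.mul (.c (-48)) (.T)) (.w)) (.s)) (.t))) (.mul (.mul (.mul (.mul (.mul (.c (-48)) (.T)) (.w)) (.s)) (.t)) (.v))) (.mul (.mul (.mul (.mul (.c (-48)) (.T)) (.w)) (.s)) (.pow (.t) 2))) (.mul (.mul (.mul (.mul (.c (-48)) (.T)) (.w)) (.pow (.s) 2)) (.t))),
    .c 0⟩

/-- free row column 51 -/
def rf51 : RFz := ⟨⟨3, 9, 0, [(0, 1)]⟩, [0, -1319886590079858562944, 5845125009126087030528, -8766283583005362680448, 2626264851199061601984, 6511045912888722022272, -7697139525587020209792, 3465540079368714162816, -774250334738128422720, 109584180827785058304],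
    .mul (.P) (.add (.mul (.c 1092) (.P)) (.mul (.mul (.c 756) (.T)) (.s))),
    .c 0⟩

/-- free row column 52 -/
def rf52 : RFz := ⟨⟨3, 9, 2, [(0, 1)]⟩, [0, 0, 0, 114178756614967706800320, -539127508766248279620288, 802426218696234426805056, -72834593467390193799360, -936582087969947764433088, 910691929625733923548608, -296928956629231014973248, 18176241895881195672000],
    .mul (.P) (.add (.add (.add (.add (.add (.add (.add (.add (.add (.add (.add (.add (.mul (.mul (.c 1260) (.P)) (.pow (.u) 2)) (.mul (.mul (.mul (.c 30) (.P)) (.s)) (.v))) (.mul (.mul (.mul (.c 30) (.P)) (.s)) (.t))) (.mul (.mul (.c 26) (.P)) (.pow (.s) 2))) (.mul (.mul (.c (-4)) (.P)) (.w))) (.mul (.mul (.mul (.c (-4)) (.P)) (.w)) (.s))) (.mul (.mul (.mul (.c 756) (.T)) (.s)) (.pow (.u) 2))) (.mul (.mul (.mul (.c (-18)) (.T)) (.w)) (.v))) (.mul (.mul (.mul (.c (-18)) (.T)) (.w)) (.t))) (.mul (.mul (.mul (.c (-18)) (.T)) (.w)) (.s))) (.mul (.mul (.mul (.mul (.c (-18)) (.T)) (.w)) (.s)) (.v)))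 (.mul (.mul (.mul (.mul (.c (-18)) (.T)) (.w)) (.s)) (.t))) (.mul (.mul (.mul (.c (-18)) (.T)) (.w)) (.pow (.s) 2))),
    .c 0⟩

/-- free row column 53 -/
def rf53 : RFz := ⟨⟨3, 9, 3, [(0, 1)]⟩, [0, 0, 0, 0, -55435236783354059643648, 245495250383295655282176, -423619147269579292222464, 355798374133656242565504, -150155218928252967287040, 32518514059001393754240, -4602535594766972448768],
    .mul (.P) (.add (.add (.add (.add (.add (.add (.add (.add (.add (.add (.add (.add (.add (.add (.mul (.mul (.mul (.c 4032) (.P)) (.t)) (.pow (.u) 2)) (.mul (.mul (.c (-2688)) (.P)) (.pow (.t) 3))) (.mul (.mul (.mul (.mul (.c 96) (.P)) (.s)) (.t)) (.v))) (.mul (.mul (.mul (.c 96) (.P)) (.s)) (.pow (.t) 2))) (.mul (.mul (.mul (.c 90) (.P)) (.pow (.s) 2)) (.t))) (.mul (.mul (.mul (.c (-6)) (.P)) (.w)) (.t))) (.mul (.mul (.mul (.mul (.c (-6)) (.P)) (.w)) (.s)) (.t))) (.mul (.mul (.mul (.mul (.c 2268) (.T)) (.s)) (.t)) (.pow (.u) 2))) (.mul (.mul (.mul (.c (-1512)) (.T)) (.s)) (.pow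 (.t) 3))) (.mul (.mul (.mul (.mul (.c (-54)) (.T)) (.w)) (.t)) (.v))) (.mul (.mul (.mul (.c (-54)) (.T)) (.w)) (.pow (.t) 2))) (.mul (.mul (.mul (.mul (.c (-54)) (.T)) (.w)) (.s)) (.t))) (.mul (.mul (.mul (.mul (.mul (.c (-54)) (.T)) (.w)) (.s)) (.t)) (.v))) (.mul (.mul (.mul (.mul (.c (-54)) (.T)) (.w)) (.s)) (.pow (.t) 2))) (.mul (.mul (.mul (.mul (.c (-54)) (.T)) (.w)) (.pow (.s) 2)) (.t))),
    .c 0⟩

/-- free row column 54 -/
def rf54 : RFz := ⟨⟨3, 9, 4, [(0, 1)]⟩, [0, 0, 0, 0, -169907769504725567777280, 3333791972476099105380864, -12443971880208908122521984, 19209678336777130094325888, -13830910864906009166562816, 4155727204497048620573952, -254467386542336739408000],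
    .mul (.P) (.add (.add (.add (.add (.add (.add (.add (.add (.add (.add (.add (.add (.add (.add (.add (.add (.add (.add (.add (.add (.add (.add (.add (.add (.add (.mul (.mul (.c 1428) (.P)) (.pow (.u) 4)) (.mul (.mul (.mul (.c 7140) (.P)) (.pow (.t) 2)) (.pow (.u) 2))) (.mul (.mul (.c (-7140)) (.P)) (.pow (.t) 4))) (.mul (.mul (.mul (.mul (.c 34) (.P)) (.s)) (.pow (.u) 2)) (.v))) (.mul (.mul (.mul (.mul (.c 34) (.P)) (.s)) (.t)) (.pow (.u) 2))) (.mul (.mul (.mul (.mul (.c 204) (.P)) (.s)) (.pow (.t) 2)) (.v))) (.mul (.mul (.mul (.c 204) (.P)) (.s)) (.pow (.t) 3))) (.mul (.mul (.mul (.c 26) (.P)) (.pow (.s) 2)) (.pow (.u) 2))) (.mul (.mul (.mul (.c 204) (.P)) (.pow (.s) 2)) (.pow (.t) 2))) (.mul (.mul (.mul (.c (-8)) (.P)) (.w)) (.pow (.u) 2))) (.mul (.mul (.mul (.mul (.c (-8)) (.P)) (.w)) (.s)) (.pow (.u) 2))) (.mul (.mul (.mul (.c 756) (.T)) (.s)) (.pow (.u) 4))) (.mul (.mul (.mul (.mul (.c 3780) (.T)) (.s)) (.pow (.t) 2)) (.pow (.u) 2))) (.mul (.mul (.mul (.c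 (-3780)) (.T)) (.s)) (.pow (.t) 4))) (.mul (.mul (.mul (.mul (.c (-18)) (.T)) (.w)) (.pow (.u) 2)) (.v))) (.mul (.mul (.mul (.mul (.c (-18)) (.T)) (.w)) (.t)) (.pow (.u) 2))) (.mul (.mul (.mul (.mul (.c (-108)) (.T)) (.w)) (.pow (.t) 2)) (.v))) (.mul (.mul (.mul (.c (-108)) (.T)) (.w)) (.pow (.t) 3))) (.mul (.mul (.mul (.mul (.c (-18)) (.T)) (.w)) (.s)) (.pow (.u) 2))) (.mul (.mul (.mul (.mul (.mul (.c (-18)) (.T)) (.w)) (.s)) (.pow (.u) 2)) (.v))) (.mul (.mul (.mul (.mul (.mul (.c (-18)) (.T)) (.w)) (.s)) (.t)) (.pow (.u) 2))) (.mul (.mul (.mul (.mul (.c (-108)) (.T)) (.w)) (.s)) (.pow (.t) 2))) (.mul (.mul (.mul (.mul (.mul (.c (-108)) (.T)) (.w)) (.s)) (.pow (.t) 2)) (.v))) (.mul (.mul (.mul (.mul (.c (-108)) (.T)) (.w)) (.s)) (.pow (.t) 3))) (.mul (.mul (.mul (.mul (.c (-18)) (.T)) (.w)) (.pow (.s) 2)) (.pow (.u) 2))) (.mul (.mul (.mul (.mul (.c (-108)) (.T)) (.w)) (.pow (.s) 2)) (.pow (.t) 2))),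
    .c 0⟩

/-- free row column 55 -/
def rf55 : RFz := ⟨⟨3, 10, 2, [(0, 1)]⟩, [0, 0, 0, -249458565525093268396416, 1104728626724830448769792, -1656827597188013546604672, 496364056876622642774976, 1230587677535968462209408, -1454759370335946819650688, 654987075000686976772224, -146333313265506271894080, 20711410176451376019456],
    .add (.add (.add (.add (.add (.add (.add (.add (.add (.add (.add (.add (.mul (.mul (.c 1260) (.P)) (.pow (.u) 2)) (.mul (.mul (.mul (.c 30) (.P)) (.s)) (.v))) (.mul (.mul (.mul (.c 30) (.P)) (.s)) (.t))) (.mul (.mul (.c 26) (.P)) (.pow (.s) 2))) (.mul (.mul (.c (-4)) (.P)) (.w))) (.mul (.mul (.mul (.c (-4)) (.P)) (.w)) (.s))) (.mul (.mul (.mul (.c 840) (.T)) (.s)) (.pow (.u) 2))) (.mul (.mul (.mul (.c (-20)) (.T)) (.w)) (.v))) (.mul (.mul (.mul (.c (-20)) (.T)) (.w)) (.t))) (.mul (.mul (.mul (.c (-20)) (.T)) (.w)) (.s))) (.mul (.mul (.mul (.mul (.c (-20)) (.T)) (.w)) (.s)) (.v))) (.mul (.mul (.mul (.mul (.c (-20)) (.T)) (.w)) (.s)) (.t)))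 (.mul (.mul (.mul (.c (-20)) (.T)) (.w)) (.pow (.s) 2)),
    .c 0⟩

/-- free row column 56 -/
def rf56 : RFz := ⟨⟨3, 10, 4, [(0, 1)]⟩, [0, 0, 0, 0, 0, -3492419917351305757549824, 15466200774147626282777088, -26688006277983495410015232, 22415297570420343281626752, -9459778792479936939083520, 2048666385717087806517120, -289959742470319264272384],
    .add (.add (.add (.add (.add (.add (.add (.add (.add (.add (.add (.add (.add (.add (.add (.add (.add (.add (.add (.add (.add (.add (.add (.add (.add (.mul (.mul (.c 1428) (.P)) (.pow (.u) 4)) (.mul (.mul (.mul (.c 7140) (.P)) (.pow (.t) 2)) (.pow (.u) 2))) (.mul (.mul (.c (-7140)) (.P)) (.pow (.t) 4))) (.mul (.mul (.mul (.mul (.c 34) (.P)) (.s)) (.pow (.u) 2)) (.v))) (.mul (.mul (.mul (.mul (.c 34) (.P)) (.s)) (.t)) (.pow (.u) 2))) (.mul (.mul (.mul (.mul (.c 204) (.P)) (.s)) (.pow (.t) 2)) (.v))) (.mul (.mul (.mul (.c 204) (.P)) (.s)) (.pow (.t) 3))) (.mul (.mul (.mul (.c 26) (.P)) (.pow (.s) 2)) (.pow (.u) 2))) (.mul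 (.mul (.mul (.c 204) (.P)) (.pow (.s) 2)) (.pow (.t) 2))) (.mul (.mul (.mul (.c (-8)) (.P)) (.w)) (.pow (.u) 2))) (.mul (.mul (.mul (.mul (.c (-8)) (.P)) (.w)) (.s)) (.pow (.u) 2))) (.mul (.mul (.mul (.c 840) (.T)) (.s)) (.pow (.u) 4))) (.mul (.mul (.mul (.mul (.c 4200) (.T)) (.s)) (.pow (.t) 2)) (.pow (.u) 2))) (.mul (.mul (.mul (.c (-4200)) (.T)) (.s)) (.pow (.t) 4))) (.mul (.mul (.mul (.mul (.c (-20)) (.T)) (.w)) (.pow (.u) 2)) (.v))) (.mul (.mul (.mul (.mul (.c (-20)) (.T)) (.w)) (.t)) (.pow (.u) 2))) (.mul (.mul (.mul (.mul (.c (-120)) (.T)) (.w)) (.pow (.t) 2)) (.v))) (.mul (.mul (.mul (.c (-120)) (.T)) (.w)) (.pow (.t) 3))) (.mul (.mul (.mul (.mul (.c (-20)) (.T)) (.w)) (.s)) (.pow (.u) 2))) (.mul (.mul (.mul (.mul (.mul (.c (-20)) (.T)) (.w)) (.s)) (.pow (.u) 2)) (.v))) (.mul (.mul (.mul (.mul (.mul (.c (-20)) (.T)) (.w)) (.s)) (.t)) (.pow (.u) 2))) (.mul (.mul (.mul (.mul (.c (-120)) (.T)) (.w)) (.s)) (.pow (.t) 2))) (.mul (.mul (.mul (.mul (.mul (.c (-120))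 (.T)) (.w)) (.s)) (.pow (.t) 2)) (.v))) (.mul (.mul (.mul (.mul (.c (-120)) (.T)) (.w)) (.s)) (.pow (.t) 3))) (.mul (.mul (.mul (.mul (.c (-20)) (.T)) (.w)) (.pow (.s) 2)) (.pow (.u) 2))) (.mul (.mul (.mul (.mul (.c (-120)) (.T)) (.w)) (.pow (.s) 2)) (.pow (.t) 2)),
    .c 0⟩

/-- free row column 57 -/
def rf57 : RFz := ⟨⟨3, 7, 0, [(1, 1)]⟩, [0, 0, 475265310278401797336, -1809072471675613847976, 2440688041889872437936, -1237765366580497807416, 107199811906155789912, -68333893738604721864, 92044747238678925600],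
    .mul (.pow (.P) 3) (.add (.mul (.mul (.c 1176) (.P)) (.s)) (.mul (.mul (.c 588) (.T)) (.pow (.s) 2))),
    .c 0⟩

/-- free row column 58 -/
def rf58 : RFz := ⟨⟨3, 8, 2, [(1, 1)]⟩, [0, 0, 0, -31757947199295967802880, 441736118642286165179664, -1479833828150046152709744, 2112600529628807426234208, -1418546368719229267876176, 400123122754168689260112, -24327725122548471078000],
    .mul (.pow (.P) 2) (.add (.add (.add (.add (.add (.add (.add (.add (.add (.add (.add (.add (.add (.add (.add (.add (.mul (.mul (.mul (.c 1344) (.P)) (.s)) (.pow (.u) 2)) (.mul (.mul (.mul (.c 30) (.P)) (.pow (.s) 2)) (.v))) (.mul (.mul (.mul (.c 30) (.P)) (.pow (.s) 2)) (.t))) (.mul (.mul (.c 26) (.P)) (.pow (.s) 3))) (.mul (.mul (.mul (.c (-2)) (.P)) (.w)) (.v))) (.mul (.mul (.mul (.c (-2)) (.P)) (.w)) (.t))) (.mul (.mul (.mul (.c (-6)) (.P)) (.w)) (.s))) (.mul (.mul (.mul (.mul (.c (-2)) (.P)) (.w)) (.s)) (.v))) (.mul (.mul (.mul (.mul (.c (-2)) (.P)) (.w)) (.s)) (.t))) (.mul (.mul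 (.mul (.c (-6)) (.P)) (.w)) (.pow (.s) 2))) (.mul (.mul (.mul (.c 672) (.T)) (.pow (.s) 2)) (.pow (.u) 2))) (.mul (.mul (.mul (.mul (.c (-16)) (.T)) (.w)) (.s)) (.v))) (.mul (.mul (.mul (.mul (.c (-16)) (.T)) (.w)) (.s)) (.t))) (.mul (.mul (.mul (.c (-16)) (.T)) (.w)) (.pow (.s) 2))) (.mul (.mul (.mul (.mul (.c (-16)) (.T)) (.w)) (.pow (.s) 2)) (.v))) (.mul (.mul (.mul (.mul (.c (-16)) (.T)) (.w)) (.pow (.s) 2)) (.t))) (.mul (.mul (.mul (.c (-16)) (.T)) (.w)) (.pow (.s) 3))),
    .c 0⟩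

/-- free row column 59 -/
def rf59 : RFz := ⟨⟨3, 8, 3, [(1, 1)]⟩, [0, 0, 0, 0, 3467505500096440158720, -27494749436389240666752, 64851428669354339201280, -61710775388770750220160, 21518082898294025586816, -631419609207820777344],
    .mul (.pow (.P) 2) (.add (.add (.add (.add (.add (.add (.add (.add (.add (.add (.add (.add (.add (.add (.add (.add (.add (.add (.mul (.mul (.mul (.mul (.c 4284) (.P)) (.s)) (.t)) (.pow (.u) 2)) (.mul (.mul (.mul (.c (-2856)) (.P)) (.s)) (.pow (.t) 3))) (.mul (.mul (.mul (.mul (.c 96) (.P)) (.pow (.s) 2)) (.t)) (.v))) (.mul (.mul (.mul (.c 96) (.P)) (.pow (.s) 2)) (.pow (.t) 2))) (.mul (.mul (.mul (.c 90) (.P)) (.pow (.s) 3)) (.t))) (.mul (.mul (.mul (.mul (.c (-6)) (.P)) (.w)) (.t)) (.v))) (.mul (.mul (.mul (.c (-6)) (.P)) (.w)) (.pow (.t) 2))) (.mul (.mul (.mul (.mul (.c (-12)) (.P)) (.w)) (.s)) (.t))) (.mul (.mul (.mul (.mul (.mul (.c (-6)) (.P)) (.w)) (.s)) (.t)) (.v))) (.mul (.mul (.mul (.mul (.c (-6)) (.P)) (.w)) (.s)) (.pow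 (.t) 2))) (.mul (.mul (.mul (.mul (.c (-12)) (.P)) (.w)) (.pow (.s) 2)) (.t))) (.mul (.mul (.mul (.mul (.c 2016) (.T)) (.pow (.s) 2)) (.t)) (.pow (.u) 2))) (.mul (.mul (.mul (.c (-1344)) (.T)) (.pow (.s) 2)) (.pow (.t) 3))) (.mul (.mul (.mul (.mul (.mul (.c (-48)) (.T)) (.w)) (.s)) (.t)) (.v))) (.mul (.mul (.mul (.mul (.c (-48)) (.T)) (.w)) (.s)) (.pow (.t) 2))) (.mul (.mul (.mul (.mul (.c (-48)) (.T)) (.w)) (.pow (.s) 2)) (.t))) (.mul (.mul (.mul (.mul (.mul (.c (-48)) (.T)) (.w)) (.pow (.s) 2)) (.t)) (.v))) (.mul (.mul (.mul (.mul (.c (-48)) (.T)) (.w)) (.pow (.s) 2)) (.pow (.t) 2))) (.mul (.mul (.mul (.mul (.c (-48)) (.T)) (.w)) (.pow (.s) 3)) (.t))),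
    .c 0⟩

/-- free row column 60 -/
def rf60 : RFz := ⟨⟨3, 9, 4, [(1, 1)]⟩, [0, 0, 0, 0, 0, 169907769504725567777280, -1347242722383072792670848, 3177720004798362620862720, -3023827994049766760787840, 1054386062016407253753984, -30939560851183218089856],
    .mul (.P) (.add (.add (.add (.add (.add (.add (.add (.add (.add (.add (.add (.add (.add (.add (.add (.add (.add (.add (.add (.add (.add (.add (.add (.add (.add (.add (.add (.add (.add (.add (.add (.add (.add (.add (.add (.mul (.mul (.mul (.c 1512) (.P)) (.s)) (.pow (.u) 4)) (.mul (.mul (.mul (.mul (.c 7560) (.P)) (.s)) (.pow (.t) 2)) (.pow (.u) 2))) (.mul (.mul (.mul (.c (-7560)) (.P)) (.s)) (.pow (.t) 4))) (.mul (.mul (.mul (.mul (.c 34) (.P)) (.pow (.s) 2)) (.pow (.u) 2)) (.v))) (.mul (.mul (.mul (.mul (.c 34) (.P)) (.pow (.s) 2)) (.t)) (.pow (.u) 2))) (.mul (.mul (.mul (.mul (.c 204) (.P)) (.pow (.s) 2)) (.pow (.t) 2)) (.v))) (.mul (.mul (.mul (.c 204) (.P)) (.pow (.s) 2)) (.pow (.t) 3))) (.mul (.mul (.mul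 (.c 26) (.P)) (.pow (.s) 3)) (.pow (.u) 2))) (.mul (.mul (.mul (.c 204) (.P)) (.pow (.s) 3)) (.pow (.t) 2))) (.mul (.mul (.mul (.mul (.c (-2)) (.P)) (.w)) (.pow (.u) 2)) (.v))) (.mul (.mul (.mul (.mul (.c (-2)) (.P)) (.w)) (.t)) (.pow (.u) 2))) (.mul (.mul (.mul (.mul (.c (-12)) (.P)) (.w)) (.pow (.t) 2)) (.v))) (.mul (.mul (.mul (.c (-12)) (.P)) (.w)) (.pow (.t) 3))) (.mul (.mul (.mul (.mul (.c (-10)) (.P)) (.w)) (.s)) (.pow (.u) 2))) (.mul (.mul (.mul (.mul (.mul (.c (-2)) (.P)) (.w)) (.s)) (.pow (.u) 2)) (.v))) (.mul (.mul (.mul (.mul (.mul (.c (-2)) (.P)) (.w)) (.s)) (.t)) (.pow (.u) 2))) (.mul (.mul (.mul (.mul (.c (-12)) (.P)) (.w)) (.s)) (.pow (.t) 2))) (.mul (.mul (.mul (.mul (.mul (.c (-12)) (.P)) (.w)) (.s)) (.pow (.t) 2)) (.v))) (.mul (.mul (.mul (.mul (.c (-12)) (.P)) (.w)) (.s)) (.pow (.t) 3))) (.mul (.mul (.mul (.mul (.c (-10)) (.P)) (.w)) (.pow (.s) 2)) (.pow (.u) 2))) (.mul (.mul (.mul (.mul (.c (-12)) (.P)) (.w)) (.pow (.s) 2)) (.pow (.t) 2)))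 (.mul (.mul (.mul (.c 756) (.T)) (.pow (.s) 2)) (.pow (.u) 4))) (.mul (.mul (.mul (.mul (.c 3780) (.T)) (.pow (.s) 2)) (.pow (.t) 2)) (.pow (.u) 2))) (.mul (.mul (.mul (.c (-3780)) (.T)) (.pow (.s) 2)) (.pow (.t) 4))) (.mul (.mul (.mul (.mul (.mul (.c (-18)) (.T)) (.w)) (.s)) (.pow (.u) 2)) (.v))) (.mul (.mul (.mul (.mul (.mul (.c (-18)) (.T)) (.w)) (.s)) (.t)) (.pow (.u) 2))) (.mul (.mul (.mul (.mul (.mul (.c (-108)) (.T)) (.w)) (.s)) (.pow (.t) 2)) (.v))) (.mul (.mul (.mul (.mul (.c (-108)) (.T)) (.w)) (.s)) (.pow (.t) 3))) (.mul (.mul (.mul (.mul (.c (-18)) (.T)) (.w)) (.pow (.s) 2)) (.pow (.u) 2))) (.mul (.mul (.mul (.mul (.mul (.c (-18)) (.T)) (.w)) (.pow (.s) 2)) (.pow (.u) 2)) (.v))) (.mul (.mul (.mul (.mul (.mul (.c (-18)) (.T)) (.w)) (.pow (.s) 2)) (.t)) (.pow (.u) 2))) (.mul (.mul (.mul (.mul (.c (-108)) (.T)) (.w)) (.pow (.s) 2)) (.pow (.t) 2))) (.mul (.mul (.mul (.mul (.mul (.c (-108)) (.T)) (.w)) (.pow (.s) 2)) (.pow (.t) 2)) (.v))) (.mul (.mul (.mul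 (.mul (.c (-108)) (.T)) (.w)) (.pow (.s) 2)) (.pow (.t) 3))) (.mul (.mul (.mul (.mul (.c (-18)) (.T)) (.w)) (.pow (.s) 3)) (.pow (.u) 2))) (.mul (.mul (.mul (.mul (.c (-108)) (.T)) (.w)) (.pow (.s) 3)) (.pow (.t) 2))),
    .c 0⟩

/-- free row column 61 -/
def rf61 : RFz := ⟨⟨3, 7, 0, [(2, 1)]⟩, [0, 0, -220159079371202549760, 2831640022372618423512, -9182921949772836416424, 12766094729365562898768, -8350479382229294539320, 2294893874978014492728, -139103892060315273000],
    .mul (.mul (.s) (.pow (.P) 3)) (.add (.mul (.mul (.c 1260) (.P)) (.s)) (.mul (.mul (.c 588) (.T)) (.pow (.s) 2))),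
    .c 0⟩

/-- free row column 62 -/
def rf62 : RFz := ⟨⟨3, 8, 2, [(2, 1)]⟩, [0, 0, 0, 0, 20213355474768534099840, -160276932230380137061344, 378042653632069540820160, -359734639071842190767520, 125436761022198109472352, -3680775420342415563168],
    .mul (.mul (.s) (.pow (.P) 2)) (.add (.add (.add (.add (.add (.add (.add (.add (.add (.add (.add (.add (.add (.add (.add (.add (.mul (.mul (.mul (.c 1428) (.P)) (.s)) (.pow (.u) 2)) (.mul (.mul (.mul (.c 30) (.P)) (.pow (.s) 2)) (.v))) (.mul (.mul (.mul (.c 30) (.P)) (.pow (.s) 2)) (.t))) (.mul (.mul (.c 26) (.P)) (.pow (.s) 3))) (.mul (.mul (.mul (.c (-4)) (.P)) (.w)) (.v))) (.mul (.mul (.mul (.c (-4)) (.P)) (.w)) (.t))) (.mul (.mul (.mul (.c (-8)) (.P)) (.w)) (.s))) (.mul (.mul (.mul (.mul (.c (-4)) (.P)) (.w)) (.s)) (.v))) (.mul (.mul (.mul (.mul (.c (-4)) (.P)) (.w)) (.s)) (.t))) (.mul (.mul (.mul (.c (-8)) (.P)) (.w)) (.pow (.s) 2))) (.mul (.mul (.mul (.c 672) (.T)) (.pow (.s) 2)) (.pow (.u) 2))) (.mul (.mul (.mul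 (.mul (.c (-16)) (.T)) (.w)) (.s)) (.v))) (.mul (.mul (.mul (.mul (.c (-16)) (.T)) (.w)) (.s)) (.t))) (.mul (.mul (.mul (.c (-16)) (.T)) (.w)) (.pow (.s) 2))) (.mul (.mul (.mul (.mul (.c (-16)) (.T)) (.w)) (.pow (.s) 2)) (.v))) (.mul (.mul (.mul (.mul (.c (-16)) (.T)) (.w)) (.pow (.s) 2)) (.t))) (.mul (.mul (.mul (.c (-16)) (.T)) (.w)) (.pow (.s) 3))),
    .c 0⟩

/-- free row column 63 -/
def rf63 : RFz := ⟨⟨3, 7, 0, [(3, 1)]⟩, [0, 0, 0, 137599424607001593600, -1091061485571001613760, 2573469391641045206400, -2448840293205188500800, 853892178503731174080, -25056333698723046720],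
    .mul (.mul (.pow (.s) 2) (.pow (.P) 3)) (.add (.mul (.mul (.c 1344) (.P)) (.s)) (.mul (.mul (.c 588) (.T)) (.pow (.s) 2))),
    .c 0⟩

/-- the free value columns -/
def lf : List VFz := [vf0, vf1, vf2, vf3, vf4, vf5, vf6, vf7, vf8, vf9, vf10, vf11, vf12, vf13, vf14, vf15, vf16, vf17, vf18, vf19, vf20, vf21, vf22, vf23, vf24, vf25, vf26, vf27, vf28, vf29, vf30, vf31, vf32, vf33, vf34, vf35, vf36, vf37, vf38, vf39, vf40, vf41, vf42, vf43, vf44, vf45, vf46, vf47, vf48, vf49, vf50, vf51, vf52, vf53, vf54, vf55, vf56, vf57, vf58, vf59, vf60, vf61, vf62, vf63, vf64, vf65, vf66, vf67, vf68, vf69, vf70, vf71, vf72, vf73, vf74, vf75, vf76, vf77, vf78, vf79, vf80, vf81, vf82, vf83, vf84, vf85, vf86, vf87, vf88, vf89, vf90, vf91, vf92, vf93, vf94, vf95, vf96, vf97, vf98, vf99, vf100, vf101, vf102, vf103, vf104, vf105, vf106, vf107, vf108, vf109, vf110, vf111, vf112, vf113, vf114, vf115, vf116, vf117, vf118, vf119, vf120, vf121, vf122, vf123, vf124, vf125, vf126, vf127,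 vf128, vf129, vf130, vf131, vf132, vf133, vf134, vf135, vf136, vf137, vf138, vf139, vf140, vf141, vf142, vf143, vf144, vf145, vf146, vf147, vf148, vf149, vf150, vf151, vf152, vf153, vf154, vf155, vf156, vf157, vf158, vf159, vf160, vf161, vf162, vf163, vf164, vf165, vf166, vf167, vf168, vf169, vf170, vf171, vf172, vf173, vf174, vf175, vf176, vf177, vf178, vf179, vf180]

/-- the free row columns -/
def rf : List RFz := [rf0, rf1, rf2, rf3, rf4, rf5, rf6, rf7, rf8, rf9, rf10, rf11, rf12, rf13, rf14, rf15, rf16, rf17, rf18, rf19, rf20, rf21, rf22, rf23, rf24, rf25, rf26, rf27, rf28, rf29, rf30, rf31, rf32, rf33, rf34, rf35, rf36, rf37, rf38, rf39, rf40, rf41, rf42, rf43, rf44, rf45, rf46, rf47, rf48, rf49, rf50, rf51, rf52, rf53, rf54, rf55, rf56, rf57, rf58, rf59, rf60, rf61, rf62, rf63]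

/-- all columns -/
def cl : List Cz := clZ (VD dl c0 kB kF lb lf) (RD dl c0 kB kF rb rf)

set_option maxRecDepth 100000 in
lemma ok_all : okD lb lf rb rf = true := by decide +kernel

set_option maxRecDepth 100000 in
/-- the errors -/
lemma err_ok : errZ 12 3 5 cl 118118643873269760 787457639098368 = true := by decide +kernel

end

end Vale.Agent.P224.S13.Z13
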